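import Vale.Agent.P098.Check.Sound

/-!
P098, positivity checker: tests on the cone where the last two coordinates are nonnegative.
The other coordinates are eliminated (a vanishing first row is skipped); the remaining two by two
matrix has to be strictly copositive.
-/

namespace Vale.Agent.P098.Check

/-- Strict copositivity of a symmetric matrix of dimension two. -/
def copos2 (p00 n00 p01 n01 p11 n11 : ℕ) : Bool :=
  Nat.blt n00 p00 && Nat.blt n11 p11 &&
    (Nat.ble n01 p01 || Nat.blt ((n01 - p01) * (n01 - p01)) ((p00 - n00) * (p11 - n11)))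

lemma copos2_sound (p00 n00 p01 n01 p11 n11 : ℕ) (h : copos2 p00 n00 p01 n01 p11 n11 = true)
    (x0 x1 : ℝ) (hx0 : 0 ≤ x0) (hx1 : 0 ≤ x1) :
    0 ≤ ((p00 : ℝ) - n00) * (x0 * x0) + ((p01 : ℝ) - n01) * (2 * (x0 * x1)) +
      ((p11 : ℝ) - n11) * (x1 * x1) := by
  simp only [copos2, Bool.and_eq_true, Bool.or_eq_true] at h
  have h0 : n00 < p00 := Nat.le_of_ble_eq_true h.1.1
  have h1 : n11 < p11 := Nat.le_of_ble_eq_true h.1.2
  have h0R : (0 : ℝ) < p00 - n00 := sub_pos.2 (Nat.cast_lt.2 h0)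
  have h1R : (0 : ℝ) < p11 - n11 := sub_pos.2 (Nat.cast_lt.2 h1)
  rcases h.2 with hb | hb
  · have hbR : (0 : ℝ) ≤ p01 - n01 := sub_nonneg.2 (Nat.cast_le.2 (Nat.le_of_ble_eq_true hb))
    positivity
  · rcases Nat.le_total n01 p01 with hle | hle
    · have hbR : (0 : ℝ) ≤ p01 - n01 := sub_nonneg.2 (Nat.cast_le.2 hle)
      positivity
    · have hb2 : ((n01 : ℝ) - p01) * (n01 - p01) < (p00 - n00) * (p11 - n11) := by
        have := Nat.le_of_ble_eq_true hb
        have : (((n01 - p01) * (n01 - p01) : ℕ) : ℝ) < (((p00 - n00) * (p11 - n11) : ℕ) : ℝ) :=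
          Nat.cast_lt.2 this
        push_cast [Nat.cast_sub hle, Nat.cast_sub h0.le, Nat.cast_sub h1.le] at this
        exact this
      refine nonneg_of_mul_nonneg_right ?_ h0R
      nlinarith [mul_self_nonneg (((p00 : ℝ) - n00) * x0 + ((p01 : ℝ) - n01) * x1),
        mul_nonneg (mul_nonneg hx1 hx1) (sub_nonneg.2 hb2.le)]

/-- Strict copositivity in dimension 3, on the cone of the last two coordinates. -/
def copos3
    (p00 n00 p01 n01 p02 n02 p11 n11 p12 n12 p22 n22 : ℕ) : Bool :=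
  if Nat.blt n00 p00 then
    copos2
      ((p00 - n00) * p11 + (p01 * n01 + n01 * p01))
      ((p00 - n00) * n11 + (p01 * p01 + n01 * n01))
      ((p00 - n00) * p12 + (p01 * n02 + n01 * p02))
      ((p00 - n00) * n12 + (p01 * p02 + n01 * n02))
      ((p00 - n00) * p22 + (p02 * n02 + n02 * p02))
      ((p00 - n00) * n22 + (p02 * p02 + n02 * n02))
  else Nat.beq p00 n00 && Nat.beq p01 n01 && Nat.beq p02 n02 &&
    copos2
      p11 n11 p12 n12 p22 n22

lemma copos3_sound
    (p00 n00 p01 n01 p02 n02 p11 n11 p12 n12 p22 n22 : ℕ)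
    (h : copos3 p00 n00 p01 n01 p02 n02 p11 n11 p12 n12 p22 n22 = true)
    (x0 x1 x2 : ℝ) (hx1 : 0 ≤ x1) (hx2 : 0 ≤ x2) :
    0 ≤ ((p00 : ℝ) - n00) * ((x0 * x0)) +
      ((p01 : ℝ) - n01) * (2 * (x0 * x1)) +
      ((p02 : ℝ) - n02) * (2 * (x0 * x2)) +
      ((p11 : ℝ) - n11) * ((x1 * x1)) +
      ((p12 : ℝ) - n12) * (2 * (x1 * x2)) +
      ((p22 : ℝ) - n22) * ((x2 * x2)) := by
  rw [copos3] at h
  split_ifs at h with hp
  · have h1 : n00 < p00 := Nat.le_of_ble_eq_true hp
    have h0 : (0 : ℝ) < p00 - n00 := sub_pos.2 (Nat.cast_lt.2 h1)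
    have ih := copos2_sound
      _ _ _ _ _ _
      h x1 x2 hx1 hx2
    push_cast [Nat.cast_sub h1.le] at ih
    refine nonneg_of_mul_nonneg_right ?_ h0
    linear_combination ih + mul_self_nonneg (((p00 : ℝ) - n00) * x0 + ((p01 : ℝ) - n01) * x1 +
    ((p02 : ℝ) - n02) * x2)
  · simp only [Bool.and_eq_true, Nat.beq_eq] at h
    have ih := copos2_sound
      _ _ _ _ _ _
      h.2 x1 x2 hx1 hx2
    obtain ⟨⟨⟨e0, e1⟩, e2⟩, -⟩ := h
    simp only [e0, e1, e2, sub_self, zero_mul]
    linarith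

/-- Strict copositivity in dimension 4, on the cone of the last two coordinates. -/
def copos4
    (p00 n00 p01 n01 p02 n02 p03 n03 p11 n11 p12 n12 p13 n13 p22 n22 p23 n23 p33 n33 : ℕ) : Bool :=
  if Nat.blt n00 p00 then
    copos3
      ((p00 - n00) * p11 + (p01 * n01 + n01 * p01))
      ((p00 - n00) * n11 + (p01 * p01 + n01 * n01))
      ((p00 - n00) * p12 + (p01 * n02 + n01 * p02))
      ((p00 - n00) * n12 + (p01 * p02 + n01 * n02))
      ((p00 - n00) * p13 + (p01 * n03 + n01 * p03))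
      ((p00 - n00) * n13 + (p01 * p03 + n01 * n03))
      ((p00 - n00) * p22 + (p02 * n02 + n02 * p02))
      ((p00 - n00) * n22 + (p02 * p02 + n02 * n02))
      ((p00 - n00) * p23 + (p02 * n03 + n02 * p03))
      ((p00 - n00) * n23 + (p02 * p03 + n02 * n03))
      ((p00 - n00) * p33 + (p03 * n03 + n03 * p03))
      ((p00 - n00) * n33 + (p03 * p03 + n03 * n03))
  else Nat.beq p00 n00 && Nat.beq p01 n01 && Nat.beq p02 n02 && Nat.beq p03 n03 &&
    copos3
      p11 n11 p12 n12 p13 n13 p22 n22 p23 n23 p33 n33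

lemma copos4_sound
    (p00 n00 p01 n01 p02 n02 p03 n03 p11 n11 p12 n12 p13 n13 p22 n22 p23 n23 p33 n33 : ℕ)
    (h : copos4 p00 n00 p01 n01 p02 n02 p03 n03 p11 n11 p12 n12 p13 n13 p22 n22 p23 n23 p33 n33
    = true)
    (x0 x1 x2 x3 : ℝ) (hx2 : 0 ≤ x2) (hx3 : 0 ≤ x3) :
    0 ≤ ((p00 : ℝ) - n00) * ((x0 * x0)) +
      ((p01 : ℝ) - n01) * (2 * (x0 * x1)) +
      ((p02 : ℝ) - n02) * (2 * (x0 * x2)) +
      ((p03 : ℝ) - n03) * (2 * (x0 * x3)) +
      ((p11 : ℝ) - n11) * ((x1 * x1)) +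
      ((p12 : ℝ) - n12) * (2 * (x1 * x2)) +
      ((p13 : ℝ) - n13) * (2 * (x1 * x3)) +
      ((p22 : ℝ) - n22) * ((x2 * x2)) +
      ((p23 : ℝ) - n23) * (2 * (x2 * x3)) +
      ((p33 : ℝ) - n33) * ((x3 * x3)) := by
  rw [copos4] at h
  split_ifs at h with hp
  · have h1 : n00 < p00 := Nat.le_of_ble_eq_true hp
    have h0 : (0 : ℝ) < p00 - n00 := sub_pos.2 (Nat.cast_lt.2 h1)
    have ih := copos3_sound
      _ _ _ _ _ _ _ _ _ _ _ _
      h x1 x2 x3 hx2 hx3
    push_cast [Nat.cast_sub h1.le] at ih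
    refine nonneg_of_mul_nonneg_right ?_ h0
    linear_combination ih + mul_self_nonneg (((p00 : ℝ) - n00) * x0 + ((p01 : ℝ) - n01) * x1 +
    ((p02 : ℝ) - n02) * x2 + ((p03 : ℝ) - n03) * x3)
  · simp only [Bool.and_eq_true, Nat.beq_eq] at h
    have ih := copos3_sound
      _ _ _ _ _ _ _ _ _ _ _ _
      h.2 x1 x2 x3 hx2 hx3
    obtain ⟨⟨⟨⟨e0, e1⟩, e2⟩, e3⟩, -⟩ := h
    simp only [e0, e1, e2, e3, sub_self, zero_mul]
    linarith

/-- Strict copositivity in dimension 5, on the cone of the last two coordinates. -/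
def copos5
    (p00 n00 p01 n01 p02 n02 p03 n03 p04 n04 p11 n11 p12 n12 p13 n13 p14 n14 p22 n22 p23 n23
    p24 n24 p33 n33 p34 n34 p44 n44 : ℕ) : Bool :=
  if Nat.blt n00 p00 then
    copos4
      ((p00 - n00) * p11 + (p01 * n01 + n01 * p01))
      ((p00 - n00) * n11 + (p01 * p01 + n01 * n01))
      ((p00 - n00) * p12 + (p01 * n02 + n01 * p02))
      ((p00 - n00) * n12 + (p01 * p02 + n01 * n02))
      ((p00 - n00) * p13 + (p01 * n03 + n01 * p03))
      ((p00 - n00) * n13 + (p01 * p03 + n01 * n03))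
      ((p00 - n00) * p14 + (p01 * n04 + n01 * p04))
      ((p00 - n00) * n14 + (p01 * p04 + n01 * n04))
      ((p00 - n00) * p22 + (p02 * n02 + n02 * p02))
      ((p00 - n00) * n22 + (p02 * p02 + n02 * n02))
      ((p00 - n00) * p23 + (p02 * n03 + n02 * p03))
      ((p00 - n00) * n23 + (p02 * p03 + n02 * n03))
      ((p00 - n00) * p24 + (p02 * n04 + n02 * p04))
      ((p00 - n00) * n24 + (p02 * p04 + n02 * n04))
      ((p00 - n00) * p33 + (p03 * n03 + n03 * p03))
      ((p00 - n00) * n33 + (p03 * p03 + n03 * n03))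
      ((p00 - n00) * p34 + (p03 * n04 + n03 * p04))
      ((p00 - n00) * n34 + (p03 * p04 + n03 * n04))
      ((p00 - n00) * p44 + (p04 * n04 + n04 * p04))
      ((p00 - n00) * n44 + (p04 * p04 + n04 * n04))
  else Nat.beq p00 n00 && Nat.beq p01 n01 && Nat.beq p02 n02 && Nat.beq p03 n03 && Nat.beq p04
  n04 &&
    copos4
      p11 n11 p12 n12 p13 n13 p14 n14 p22 n22 p23 n23 p24 n24 p33 n33 p34 n34 p44 n44

lemma copos5_sound
    (p00 n00 p01 n01 p02 n02 p03 n03 p04 n04 p11 n11 p12 n12 p13 n13 p14 n14 p22 n22 p23 n23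
    p24 n24 p33 n33 p34 n34 p44 n44 : ℕ)
    (h : copos5 p00 n00 p01 n01 p02 n02 p03 n03 p04 n04 p11 n11 p12 n12 p13 n13 p14 n14 p22 n22
    p23 n23 p24 n24 p33 n33 p34 n34 p44 n44 = true)
    (x0 x1 x2 x3 x4 : ℝ) (hx3 : 0 ≤ x3) (hx4 : 0 ≤ x4) :
    0 ≤ ((p00 : ℝ) - n00) * ((x0 * x0)) +
      ((p01 : ℝ) - n01) * (2 * (x0 * x1)) +
      ((p02 : ℝ) - n02) * (2 * (x0 * x2)) +
      ((p03 : ℝ) - n03) * (2 * (x0 * x3)) +
      ((p04 : ℝ) - n04) * (2 * (x0 * x4)) +
      ((p11 : ℝ) - n11) * ((x1 * x1)) +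
      ((p12 : ℝ) - n12) * (2 * (x1 * x2)) +
      ((p13 : ℝ) - n13) * (2 * (x1 * x3)) +
      ((p14 : ℝ) - n14) * (2 * (x1 * x4)) +
      ((p22 : ℝ) - n22) * ((x2 * x2)) +
      ((p23 : ℝ) - n23) * (2 * (x2 * x3)) +
      ((p24 : ℝ) - n24) * (2 * (x2 * x4)) +
      ((p33 : ℝ) - n33) * ((x3 * x3)) +
      ((p34 : ℝ) - n34) * (2 * (x3 * x4)) +
      ((p44 : ℝ) - n44) * ((x4 * x4)) := by
  rw [copos5] at h
  split_ifs at h with hp
  · have h1 : n00 < p00 := Nat.le_of_ble_eq_true hp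
    have h0 : (0 : ℝ) < p00 - n00 := sub_pos.2 (Nat.cast_lt.2 h1)
    have ih := copos4_sound
      _ _ _ _ _ _ _ _ _ _ _ _ _ _ _ _ _ _ _ _
      h x1 x2 x3 x4 hx3 hx4
    push_cast [Nat.cast_sub h1.le] at ih
    refine nonneg_of_mul_nonneg_right ?_ h0
    linear_combination ih + mul_self_nonneg (((p00 : ℝ) - n00) * x0 + ((p01 : ℝ) - n01) * x1 +
    ((p02 : ℝ) - n02) * x2 + ((p03 : ℝ) - n03) * x3 + ((p04 : ℝ) - n04) * x4)
  · simp only [Bool.and_eq_true, Nat.beq_eq] at h
    have ih := copos4_sound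
      _ _ _ _ _ _ _ _ _ _ _ _ _ _ _ _ _ _ _ _
      h.2 x1 x2 x3 x4 hx3 hx4
    obtain ⟨⟨⟨⟨⟨e0, e1⟩, e2⟩, e3⟩, e4⟩, -⟩ := h
    simp only [e0, e1, e2, e3, e4, sub_self, zero_mul]
    linarith

/-- Strict copositivity in dimension 6, on the cone of the last two coordinates. -/
def copos6
    (p00 n00 p01 n01 p02 n02 p03 n03 p04 n04 p05 n05 p11 n11 p12 n12 p13 n13 p14 n14 p15 n15
    p22 n22 p23 n23 p24 n24 p25 n25 p33 n33 p34 n34 p35 n35 p44 n44 p45 n45 p55 n55 : ℕ) : Bool :=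
  if Nat.blt n00 p00 then
    copos5
      ((p00 - n00) * p11 + (p01 * n01 + n01 * p01))
      ((p00 - n00) * n11 + (p01 * p01 + n01 * n01))
      ((p00 - n00) * p12 + (p01 * n02 + n01 * p02))
      ((p00 - n00) * n12 + (p01 * p02 + n01 * n02))
      ((p00 - n00) * p13 + (p01 * n03 + n01 * p03))
      ((p00 - n00) * n13 + (p01 * p03 + n01 * n03))
      ((p00 - n00) * p14 + (p01 * n04 + n01 * p04))
      ((p00 - n00) * n14 + (p01 * p04 + n01 * n04))
      ((p00 - n00) * p15 + (p01 * n05 + n01 * p05))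
      ((p00 - n00) * n15 + (p01 * p05 + n01 * n05))
      ((p00 - n00) * p22 + (p02 * n02 + n02 * p02))
      ((p00 - n00) * n22 + (p02 * p02 + n02 * n02))
      ((p00 - n00) * p23 + (p02 * n03 + n02 * p03))
      ((p00 - n00) * n23 + (p02 * p03 + n02 * n03))
      ((p00 - n00) * p24 + (p02 * n04 + n02 * p04))
      ((p00 - n00) * n24 + (p02 * p04 + n02 * n04))
      ((p00 - n00) * p25 + (p02 * n05 + n02 * p05))
      ((p00 - n00) * n25 + (p02 * p05 + n02 * n05))
      ((p00 - n00) * p33 + (p03 * n03 + n03 * p03))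
      ((p00 - n00) * n33 + (p03 * p03 + n03 * n03))
      ((p00 - n00) * p34 + (p03 * n04 + n03 * p04))
      ((p00 - n00) * n34 + (p03 * p04 + n03 * n04))
      ((p00 - n00) * p35 + (p03 * n05 + n03 * p05))
      ((p00 - n00) * n35 + (p03 * p05 + n03 * n05))
      ((p00 - n00) * p44 + (p04 * n04 + n04 * p04))
      ((p00 - n00) * n44 + (p04 * p04 + n04 * n04))
      ((p00 - n00) * p45 + (p04 * n05 + n04 * p05))
      ((p00 - n00) * n45 + (p04 * p05 + n04 * n05))
      ((p00 - n00) * p55 + (p05 * n05 + n05 * p05))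
      ((p00 - n00) * n55 + (p05 * p05 + n05 * n05))
  else Nat.beq p00 n00 && Nat.beq p01 n01 && Nat.beq p02 n02 && Nat.beq p03 n03 && Nat.beq p04
  n04 && Nat.beq p05 n05 &&
    copos5
      p11 n11 p12 n12 p13 n13 p14 n14 p15 n15 p22 n22 p23 n23 p24 n24 p25 n25 p33 n33 p34 n34
      p35 n35 p44 n44 p45 n45 p55 n55

lemma copos6_sound
    (p00 n00 p01 n01 p02 n02 p03 n03 p04 n04 p05 n05 p11 n11 p12 n12 p13 n13 p14 n14 p15 n15
    p22 n22 p23 n23 p24 n24 p25 n25 p33 n33 p34 n34 p35 n35 p44 n44 p45 n45 p55 n55 : ℕ)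
    (h : copos6 p00 n00 p01 n01 p02 n02 p03 n03 p04 n04 p05 n05 p11 n11 p12 n12 p13 n13 p14 n14
    p15 n15 p22 n22 p23 n23 p24 n24 p25 n25 p33 n33 p34 n34 p35 n35 p44 n44 p45 n45 p55 n55
    = true)
    (x0 x1 x2 x3 x4 x5 : ℝ) (hx4 : 0 ≤ x4) (hx5 : 0 ≤ x5) :
    0 ≤ ((p00 : ℝ) - n00) * ((x0 * x0)) +
      ((p01 : ℝ) - n01) * (2 * (x0 * x1)) +
      ((p02 : ℝ) - n02) * (2 * (x0 * x2)) +
      ((p03 : ℝ) - n03) * (2 * (x0 * x3)) +
      ((p04 : ℝ) - n04) * (2 * (x0 * x4)) +
      ((p05 : ℝ) - n05) * (2 * (x0 * x5)) +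
      ((p11 : ℝ) - n11) * ((x1 * x1)) +
      ((p12 : ℝ) - n12) * (2 * (x1 * x2)) +
      ((p13 : ℝ) - n13) * (2 * (x1 * x3)) +
      ((p14 : ℝ) - n14) * (2 * (x1 * x4)) +
      ((p15 : ℝ) - n15) * (2 * (x1 * x5)) +
      ((p22 : ℝ) - n22) * ((x2 * x2)) +
      ((p23 : ℝ) - n23) * (2 * (x2 * x3)) +
      ((p24 : ℝ) - n24) * (2 * (x2 * x4)) +
      ((p25 : ℝ) - n25) * (2 * (x2 * x5)) +
      ((p33 : ℝ) - n33) * ((x3 * x3)) +
      ((p34 : ℝ) - n34) * (2 * (x3 * x4)) +
      ((p35 : ℝ) - n35) * (2 * (x3 * x5)) +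
      ((p44 : ℝ) - n44) * ((x4 * x4)) +
      ((p45 : ℝ) - n45) * (2 * (x4 * x5)) +
      ((p55 : ℝ) - n55) * ((x5 * x5)) := by
  rw [copos6] at h
  split_ifs at h with hp
  · have h1 : n00 < p00 := Nat.le_of_ble_eq_true hp
    have h0 : (0 : ℝ) < p00 - n00 := sub_pos.2 (Nat.cast_lt.2 h1)
    have ih := copos5_sound
      _ _ _ _ _ _ _ _ _ _ _ _ _ _ _ _ _ _ _ _ _ _ _ _ _ _ _ _ _ _
      h x1 x2 x3 x4 x5 hx4 hx5
    push_cast [Nat.cast_sub h1.le] at ih
    refine nonneg_of_mul_nonneg_right ?_ h0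
    linear_combination ih + mul_self_nonneg (((p00 : ℝ) - n00) * x0 + ((p01 : ℝ) - n01) * x1 +
    ((p02 : ℝ) - n02) * x2 + ((p03 : ℝ) - n03) * x3 + ((p04 : ℝ) - n04) * x4 + ((p05 : ℝ) - n05)
    * x5)
  · simp only [Bool.and_eq_true, Nat.beq_eq] at h
    have ih := copos5_sound
      _ _ _ _ _ _ _ _ _ _ _ _ _ _ _ _ _ _ _ _ _ _ _ _ _ _ _ _ _ _
      h.2 x1 x2 x3 x4 x5 hx4 hx5
    obtain ⟨⟨⟨⟨⟨⟨e0, e1⟩, e2⟩, e3⟩, e4⟩, e5⟩, -⟩ := h
    simp only [e0, e1, e2, e3, e4, e5, sub_self, zero_mul]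
    linarith

/-- The packed test on the cone in dimension 2, without multiplier. -/
def leafC2 (X P Q _w : ℕ) : List ℕ → Bool
  | [] =>
    copos2
      (P % X) (Q % X) (P / X % X) (Q / X % X) (P / X / X % X) (Q / X / X % X)
  | _ => false

lemma leafC2_sound (x0 x1 : ℝ) (hx0 : 0 ≤ x0) (hx1 : 0 ≤ x1) :
    LeafSound 3 leafC2 (symMon [x0, x1]) := by
  intro X P Q w mult h
  unfold leafC2 at h
  split at h
  · have := copos2_sound
      _ _ _ _ _ _
      h x0 x1 hx0 hx1
    simp only [splitN, addMult, symMon, dotR, List.map_cons, List.map_nil, List.cons_append,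
      List.nil_append] at this ⊢
    linarith
  · simp at h

/-- The packed test on the cone in dimension 3, without multiplier. -/
def leafC3 (X P Q _w : ℕ) : List ℕ → Bool
  | [] =>
    copos3
      (P % X) (Q % X) (P / X % X) (Q / X % X) (P / X / X % X) (Q / X / X % X) (P / X / X / X % X)
      (Q / X / X / X % X) (P / X / X / X / X % X) (Q / X / X / X / X % X)
      (P / X / X / X / X / X % X) (Q / X / X / X / X / X % X)
  | _ => false

lemma leafC3_sound (x0 x1 x2 : ℝ) (hx1 : 0 ≤ x1) (hx2 : 0 ≤ x2) :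
    LeafSound 6 leafC3 (symMon [x0, x1, x2]) := by
  intro X P Q w mult h
  unfold leafC3 at h
  split at h
  · have := copos3_sound
      _ _ _ _ _ _ _ _ _ _ _ _
      h x0 x1 x2 hx1 hx2
    simp only [splitN, addMult, symMon, dotR, List.map_cons, List.map_nil, List.cons_append,
      List.nil_append] at this ⊢
    linarith
  · simp at h

/-- The packed test on the cone in dimension 4, without multiplier. -/
def leafC4 (X P Q _w : ℕ) : List ℕ → Bool
  | [] =>
    copos4
      (P % X) (Q % X) (P / X % X) (Q / X % X) (P / X / X % X) (Q / X / X % X) (P / X / X / X % X)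
      (Q / X / X / X % X) (P / X / X / X / X % X) (Q / X / X / X / X % X)
      (P / X / X / X / X / X % X) (Q / X / X / X / X / X % X) (P / X / X / X / X / X / X % X)
      (Q / X / X / X / X / X / X % X) (P / X / X / X / X / X / X / X % X)
      (Q / X / X / X / X / X / X / X % X) (P / X / X / X / X / X / X / X / X % X)
      (Q / X / X / X / X / X / X / X / X % X) (P / X / X / X / X / X / X / X / X / X % X)
      (Q / X / X / X / X / X / X / X / X / X % X)
  | _ => false

lemma leafC4_sound (x0 x1 x2 x3 : ℝ) (hx2 : 0 ≤ x2) (hx3 : 0 ≤ x3) :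
    LeafSound 10 leafC4 (symMon [x0, x1, x2, x3]) := by
  intro X P Q w mult h
  unfold leafC4 at h
  split at h
  · have := copos4_sound
      _ _ _ _ _ _ _ _ _ _ _ _ _ _ _ _ _ _ _ _
      h x0 x1 x2 x3 hx2 hx3
    simp only [splitN, addMult, symMon, dotR, List.map_cons, List.map_nil, List.cons_append,
      List.nil_append] at this ⊢
    linarith
  · simp at h

/-- The packed test on the cone in dimension 5, without multiplier. -/
def leafC5 (X P Q _w : ℕ) : List ℕ → Bool
  | [] =>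
    copos5
      (P % X) (Q % X) (P / X % X) (Q / X % X) (P / X / X % X) (Q / X / X % X) (P / X / X / X % X)
      (Q / X / X / X % X) (P / X / X / X / X % X) (Q / X / X / X / X % X)
      (P / X / X / X / X / X % X) (Q / X / X / X / X / X % X) (P / X / X / X / X / X / X % X)
      (Q / X / X / X / X / X / X % X) (P / X / X / X / X / X / X / X % X)
      (Q / X / X / X / X / X / X / X % X) (P / X / X / X / X / X / X / X / X % X)
      (Q / X / X / X / X / X / X / X / X % X) (P / X / X / X / X / X / X / X / X / X % X)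
      (Q / X / X / X / X / X / X / X / X / X % X) (P / X / X / X / X / X / X / X / X / X / X % X)
      (Q / X / X / X / X / X / X / X / X / X / X % X)
      (P / X / X / X / X / X / X / X / X / X / X / X % X)
      (Q / X / X / X / X / X / X / X / X / X / X / X % X)
      (P / X / X / X / X / X / X / X / X / X / X / X / X % X)
      (Q / X / X / X / X / X / X / X / X / X / X / X / X % X)
      (P / X / X / X / X / X / X / X / X / X / X / X / X / X % X)
      (Q / X / X / X / X / X / X / X / X / X / X / X / X / X % X)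
      (P / X / X / X / X / X / X / X / X / X / X / X / X / X / X % X)
      (Q / X / X / X / X / X / X / X / X / X / X / X / X / X / X % X)
  | _ => false

lemma leafC5_sound (x0 x1 x2 x3 x4 : ℝ) (hx3 : 0 ≤ x3) (hx4 : 0 ≤ x4) :
    LeafSound 15 leafC5 (symMon [x0, x1, x2, x3, x4]) := by
  intro X P Q w mult h
  unfold leafC5 at h
  split at h
  · have := copos5_sound
      _ _ _ _ _ _ _ _ _ _ _ _ _ _ _ _ _ _ _ _ _ _ _ _ _ _ _ _ _ _
      h x0 x1 x2 x3 x4 hx3 hx4
    simp only [splitN, addMult, symMon, dotR, List.map_cons, List.map_nil, List.cons_append,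
      List.nil_append] at this ⊢
    linarith
  · simp at h

/-- The packed test on the cone in dimension 6, without multiplier. -/
def leafC6 (X P Q _w : ℕ) : List ℕ → Bool
  | [] =>
    copos6
      (P % X) (Q % X) (P / X % X) (Q / X % X) (P / X / X % X) (Q / X / X % X) (P / X / X / X % X)
      (Q / X / X / X % X) (P / X / X / X / X % X) (Q / X / X / X / X % X)
      (P / X / X / X / X / X % X) (Q / X / X / X / X / X % X) (P / X / X / X / X / X / X % X)
      (Q / X / X / X / X / X / X % X) (P / X / X / X / X / X / X / X % X)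
      (Q / X / X / X / X / X / X / X % X) (P / X / X / X / X / X / X / X / X % X)
      (Q / X / X / X / X / X / X / X / X % X) (P / X / X / X / X / X / X / X / X / X % X)
      (Q / X / X / X / X / X / X / X / X / X % X) (P / X / X / X / X / X / X / X / X / X / X % X)
      (Q / X / X / X / X / X / X / X / X / X / X % X)
      (P / X / X / X / X / X / X / X / X / X / X / X % X)
      (Q / X / X / X / X / X / X / X / X / X / X / X % X)
      (P / X / X / X / X / X / X / X / X / X / X / X / X % X)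
      (Q / X / X / X / X / X / X / X / X / X / X / X / X % X)
      (P / X / X / X / X / X / X / X / X / X / X / X / X / X % X)
      (Q / X / X / X / X / X / X / X / X / X / X / X / X / X % X)
      (P / X / X / X / X / X / X / X / X / X / X / X / X / X / X % X)
      (Q / X / X / X / X / X / X / X / X / X / X / X / X / X / X % X)
      (P / X / X / X / X / X / X / X / X / X / X / X / X / X / X / X % X)
      (Q / X / X / X / X / X / X / X / X / X / X / X / X / X / X / X % X)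
      (P / X / X / X / X / X / X / X / X / X / X / X / X / X / X / X / X % X)
      (Q / X / X / X / X / X / X / X / X / X / X / X / X / X / X / X / X % X)
      (P / X / X / X / X / X / X / X / X / X / X / X / X / X / X / X / X / X % X)
      (Q / X / X / X / X / X / X / X / X / X / X / X / X / X / X / X / X / X % X)
      (P / X / X / X / X / X / X / X / X / X / X / X / X / X / X / X / X / X / X % X)
      (Q / X / X / X / X / X / X / X / X / X / X / X / X / X / X / X / X / X / X % X)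
      (P / X / X / X / X / X / X / X / X / X / X / X / X / X / X / X / X / X / X / X % X)
      (Q / X / X / X / X / X / X / X / X / X / X / X / X / X / X / X / X / X / X / X % X)
      (P / X / X / X / X / X / X / X / X / X / X / X / X / X / X / X / X / X / X / X / X % X)
      (Q / X / X / X / X / X / X / X / X / X / X / X / X / X / X / X / X / X / X / X / X % X)
  | _ => false

lemma leafC6_sound (x0 x1 x2 x3 x4 x5 : ℝ) (hx4 : 0 ≤ x4) (hx5 : 0 ≤ x5) :
    LeafSound 21 leafC6 (symMon [x0, x1, x2, x3, x4, x5]) := by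
  intro X P Q w mult h
  unfold leafC6 at h
  split at h
  · have := copos6_sound
      _ _ _ _ _ _ _ _ _ _ _ _ _ _ _ _ _ _ _ _ _ _ _ _ _ _ _ _ _ _ _ _ _ _ _ _ _ _ _ _ _ _
      h x0 x1 x2 x3 x4 x5 hx4 hx5
    simp only [splitN, addMult, symMon, dotR, List.map_cons, List.map_nil, List.cons_append,
      List.nil_append] at this ⊢
    linarith
  · simp at h

end Vale.Agent.P098.Check
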