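import Vale.Agent.P098.Check.Tree
import Vale.Agent.P098.Check.Cone

/-!
P098, positivity checker: copies of the tests on primitive operations and recursors, which the
kernel evaluates with far fewer intermediate terms, and their agreement with the tests.
-/

namespace Vale.Agent.P098.Check

noncomputable section

/-- `List.all` by the recursor. -/
def allR {α : Type} (f : α → Bool) (l : List α) : Bool :=
  List.rec true (fun a _ ih => cond (f a) ih false) l

lemma allR_eq {α : Type} (f : α → Bool) (l : List α) : allR f l = l.all f := by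
  induction l with
  | nil => rfl
  | cons a l ih => simp only [allR] at ih ⊢; rw [ih, List.all_cons]; cases f a <;> rfl

/-- `dotN` by the recursor. -/
def dotP (ks : List ℕ) : List ℕ → ℕ :=
  List.rec (fun _ => 0)
    (fun k _ ih qs => List.rec 0 (fun q qs' _ => Nat.add (Nat.mul k q) (ih qs')) qs) ks

lemma dotP_eq : ∀ ks qs : List ℕ, dotP ks qs = dotN ks qs
  | [], _ => rfl
  | _ :: _, [] => rfl
  | k :: ks, q :: qs => congrArg (k * q + ·) (dotP_eq ks qs)

/-- `splitN` by the recursor. -/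
def splitP (X k : ℕ) : ℕ → List ℕ :=
  Nat.rec (fun _ => []) (fun _ ih Z => Nat.mod Z X :: ih (Nat.div Z X)) k

lemma splitP_eq (X : ℕ) : ∀ k Z : ℕ, splitP X k Z = splitN X k Z
  | 0, _ => rfl
  | k + 1, Z => congrArg (Z % X :: ·) (splitP_eq X k (Z / X))

/-- `sumN` by the recursor. -/
def sumP (l : List ℕ) : ℕ := List.rec 0 (fun k _ ih => Nat.add k ih) l

lemma sumP_eq : ∀ l : List ℕ, sumP l = sumN l
  | [] => rfl
  | k :: l => congrArg (k + ·) (sumP_eq l)

/-- `copos2` on primitive operations. -/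
def coposR2 (p00 n00 p01 n01 p11 n11 : ℕ) : Bool :=
  cond (Nat.blt n00 p00) (cond (Nat.blt n11 p11) (cond (Nat.ble n01 p01) true
    (Nat.blt (Nat.mul (Nat.sub n01 p01) (Nat.sub n01 p01))
      (Nat.mul (Nat.sub p00 n00) (Nat.sub p11 n11)))) false) false

lemma coposR2_eq (p00 n00 p01 n01 p11 n11 : ℕ) :
    coposR2 p00 n00 p01 n01 p11 n11 = copos2 p00 n00 p01 n01 p11 n11 := by
  unfold coposR2 copos2
  cases Nat.blt n00 p00 <;> cases Nat.blt n11 p11 <;> cases Nat.ble n01 p01 <;> rfl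

/-- `copos3` on primitive operations. -/
def coposR3
    (p00 n00 p01 n01 p02 n02 p11 n11 p12 n12 p22 n22 : ℕ) : Bool :=
  cond (Nat.blt n00 p00)
    (coposR2
      (Nat.add (Nat.mul (Nat.sub p00 n00) p11) (Nat.add (Nat.mul p01 n01) (Nat.mul n01 p01)))
      (Nat.add (Nat.mul (Nat.sub p00 n00) n11) (Nat.add (Nat.mul p01 p01) (Nat.mul n01 n01)))
      (Nat.add (Nat.mul (Nat.sub p00 n00) p12) (Nat.add (Nat.mul p01 n02) (Nat.mul n01 p02)))
      (Nat.add (Nat.mul (Nat.sub p00 n00) n12) (Nat.add (Nat.mul p01 p02) (Nat.mul n01 n02)))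
      (Nat.add (Nat.mul (Nat.sub p00 n00) p22) (Nat.add (Nat.mul p02 n02) (Nat.mul n02 p02)))
      (Nat.add (Nat.mul (Nat.sub p00 n00) n22) (Nat.add (Nat.mul p02 p02) (Nat.mul n02 n02)))
    )
    (cond (Nat.beq p00 n00)
      (cond (Nat.beq p01 n01)
      (cond (Nat.beq p02 n02)
      (coposR2 p11 n11 p12 n12 p22 n22) false) false) false)

lemma coposR3_eq
    (p00 n00 p01 n01 p02 n02 p11 n11 p12 n12 p22 n22 : ℕ) :
    coposR3 p00 n00 p01 n01 p02 n02 p11 n11 p12 n12 p22 n22 =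
      copos3 p00 n00 p01 n01 p02 n02 p11 n11 p12 n12 p22 n22 := by
  unfold coposR3 copos3
  simp only [coposR2_eq, Nat.add_eq, Nat.mul_eq, Nat.sub_eq]
  cases Nat.blt n00 p00 <;>
    cases Nat.beq p00 n00 <;> cases Nat.beq p01 n01 <;> cases Nat.beq p02 n02 <;>
    simp

/-- `copos4` on primitive operations. -/
def coposR4
    (p00 n00 p01 n01 p02 n02 p03 n03 p11 n11 p12 n12 p13 n13 p22 n22 p23 n23 p33 n33 : ℕ) : Bool :=
  cond (Nat.blt n00 p00)
    (coposR3
      (Nat.add (Nat.mul (Nat.sub p00 n00) p11) (Nat.add (Nat.mul p01 n01) (Nat.mul n01 p01)))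
      (Nat.add (Nat.mul (Nat.sub p00 n00) n11) (Nat.add (Nat.mul p01 p01) (Nat.mul n01 n01)))
      (Nat.add (Nat.mul (Nat.sub p00 n00) p12) (Nat.add (Nat.mul p01 n02) (Nat.mul n01 p02)))
      (Nat.add (Nat.mul (Nat.sub p00 n00) n12) (Nat.add (Nat.mul p01 p02) (Nat.mul n01 n02)))
      (Nat.add (Nat.mul (Nat.sub p00 n00) p13) (Nat.add (Nat.mul p01 n03) (Nat.mul n01 p03)))
      (Nat.add (Nat.mul (Nat.sub p00 n00) n13) (Nat.add (Nat.mul p01 p03) (Nat.mul n01 n03)))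
      (Nat.add (Nat.mul (Nat.sub p00 n00) p22) (Nat.add (Nat.mul p02 n02) (Nat.mul n02 p02)))
      (Nat.add (Nat.mul (Nat.sub p00 n00) n22) (Nat.add (Nat.mul p02 p02) (Nat.mul n02 n02)))
      (Nat.add (Nat.mul (Nat.sub p00 n00) p23) (Nat.add (Nat.mul p02 n03) (Nat.mul n02 p03)))
      (Nat.add (Nat.mul (Nat.sub p00 n00) n23) (Nat.add (Nat.mul p02 p03) (Nat.mul n02 n03)))
      (Nat.add (Nat.mul (Nat.sub p00 n00) p33) (Nat.add (Nat.mul p03 n03) (Nat.mul n03 p03)))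
      (Nat.add (Nat.mul (Nat.sub p00 n00) n33) (Nat.add (Nat.mul p03 p03) (Nat.mul n03 n03)))
    )
    (cond (Nat.beq p00 n00)
      (cond (Nat.beq p01 n01)
      (cond (Nat.beq p02 n02)
      (cond (Nat.beq p03 n03)
      (coposR3 p11 n11 p12 n12 p13 n13 p22 n22 p23 n23 p33 n33) false) false) false) false)

lemma coposR4_eq
    (p00 n00 p01 n01 p02 n02 p03 n03 p11 n11 p12 n12 p13 n13 p22 n22 p23 n23 p33 n33 : ℕ) :
    coposR4 p00 n00 p01 n01 p02 n02 p03 n03 p11 n11 p12 n12 p13 n13 p22 n22 p23 n23 p33 n33 =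
      copos4 p00 n00 p01 n01 p02 n02 p03 n03 p11 n11 p12 n12 p13 n13 p22 n22 p23 n23 p33 n33 := by
  unfold coposR4 copos4
  simp only [coposR3_eq, Nat.add_eq, Nat.mul_eq, Nat.sub_eq]
  cases Nat.blt n00 p00 <;>
    cases Nat.beq p00 n00 <;> cases Nat.beq p01 n01 <;> cases Nat.beq p02 n02 <;> cases Nat.beq p03 n03 <;>
    simp

/-- `copos5` on primitive operations. -/
def coposR5
    (p00 n00 p01 n01 p02 n02 p03 n03 p04 n04 p11 n11 p12 n12 p13 n13 p14 n14 p22 n22 p23 n23 p24 n24 p33 n33 p34 n34 p44 n44 : ℕ) : Bool :=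
  cond (Nat.blt n00 p00)
    (coposR4
      (Nat.add (Nat.mul (Nat.sub p00 n00) p11) (Nat.add (Nat.mul p01 n01) (Nat.mul n01 p01)))
      (Nat.add (Nat.mul (Nat.sub p00 n00) n11) (Nat.add (Nat.mul p01 p01) (Nat.mul n01 n01)))
      (Nat.add (Nat.mul (Nat.sub p00 n00) p12) (Nat.add (Nat.mul p01 n02) (Nat.mul n01 p02)))
      (Nat.add (Nat.mul (Nat.sub p00 n00) n12) (Nat.add (Nat.mul p01 p02) (Nat.mul n01 n02)))
      (Nat.add (Nat.mul (Nat.sub p00 n00) p13) (Nat.add (Nat.mul p01 n03) (Nat.mul n01 p03)))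
      (Nat.add (Nat.mul (Nat.sub p00 n00) n13) (Nat.add (Nat.mul p01 p03) (Nat.mul n01 n03)))
      (Nat.add (Nat.mul (Nat.sub p00 n00) p14) (Nat.add (Nat.mul p01 n04) (Nat.mul n01 p04)))
      (Nat.add (Nat.mul (Nat.sub p00 n00) n14) (Nat.add (Nat.mul p01 p04) (Nat.mul n01 n04)))
      (Nat.add (Nat.mul (Nat.sub p00 n00) p22) (Nat.add (Nat.mul p02 n02) (Nat.mul n02 p02)))
      (Nat.add (Nat.mul (Nat.sub p00 n00) n22) (Nat.add (Nat.mul p02 p02) (Nat.mul n02 n02)))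
      (Nat.add (Nat.mul (Nat.sub p00 n00) p23) (Nat.add (Nat.mul p02 n03) (Nat.mul n02 p03)))
      (Nat.add (Nat.mul (Nat.sub p00 n00) n23) (Nat.add (Nat.mul p02 p03) (Nat.mul n02 n03)))
      (Nat.add (Nat.mul (Nat.sub p00 n00) p24) (Nat.add (Nat.mul p02 n04) (Nat.mul n02 p04)))
      (Nat.add (Nat.mul (Nat.sub p00 n00) n24) (Nat.add (Nat.mul p02 p04) (Nat.mul n02 n04)))
      (Nat.add (Nat.mul (Nat.sub p00 n00) p33) (Nat.add (Nat.mul p03 n03) (Nat.mul n03 p03)))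
      (Nat.add (Nat.mul (Nat.sub p00 n00) n33) (Nat.add (Nat.mul p03 p03) (Nat.mul n03 n03)))
      (Nat.add (Nat.mul (Nat.sub p00 n00) p34) (Nat.add (Nat.mul p03 n04) (Nat.mul n03 p04)))
      (Nat.add (Nat.mul (Nat.sub p00 n00) n34) (Nat.add (Nat.mul p03 p04) (Nat.mul n03 n04)))
      (Nat.add (Nat.mul (Nat.sub p00 n00) p44) (Nat.add (Nat.mul p04 n04) (Nat.mul n04 p04)))
      (Nat.add (Nat.mul (Nat.sub p00 n00) n44) (Nat.add (Nat.mul p04 p04) (Nat.mul n04 n04)))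
    )
    (cond (Nat.beq p00 n00)
      (cond (Nat.beq p01 n01)
      (cond (Nat.beq p02 n02)
      (cond (Nat.beq p03 n03)
      (cond (Nat.beq p04 n04)
      (coposR4 p11 n11 p12 n12 p13 n13 p14 n14 p22 n22 p23 n23 p24 n24 p33 n33 p34 n34 p44 n44) false) false) false) false) false)

lemma coposR5_eq
    (p00 n00 p01 n01 p02 n02 p03 n03 p04 n04 p11 n11 p12 n12 p13 n13 p14 n14 p22 n22 p23 n23 p24 n24 p33 n33 p34 n34 p44 n44 : ℕ) :
    coposR5 p00 n00 p01 n01 p02 n02 p03 n03 p04 n04 p11 n11 p12 n12 p13 n13 p14 n14 p22 n22 p23 n23 p24 n24 p33 n33 p34 n34 p44 n44 =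
      copos5 p00 n00 p01 n01 p02 n02 p03 n03 p04 n04 p11 n11 p12 n12 p13 n13 p14 n14 p22 n22 p23 n23 p24 n24 p33 n33 p34 n34 p44 n44 := by
  unfold coposR5 copos5
  simp only [coposR4_eq, Nat.add_eq, Nat.mul_eq, Nat.sub_eq]
  cases Nat.blt n00 p00 <;>
    cases Nat.beq p00 n00 <;> cases Nat.beq p01 n01 <;> cases Nat.beq p02 n02 <;> cases Nat.beq p03 n03 <;> cases Nat.beq p04 n04 <;>
    simp

/-- The packed test of `leafC4` on primitive operations. -/
def leafR4 (X P Q : ℕ) : Bool :=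
  coposR4
    (Nat.mod P X)
    (Nat.mod Q X)
    (Nat.mod (Nat.div P X) X)
    (Nat.mod (Nat.div Q X) X)
    (Nat.mod (Nat.div (Nat.div P X) X) X)
    (Nat.mod (Nat.div (Nat.div Q X) X) X)
    (Nat.mod (Nat.div (Nat.div (Nat.div P X) X) X) X)
    (Nat.mod (Nat.div (Nat.div (Nat.div Q X) X) X) X)
    (Nat.mod (Nat.div (Nat.div (Nat.div (Nat.div P X) X) X) X) X)
    (Nat.mod (Nat.div (Nat.div (Nat.div (Nat.div Q X) X) X) X) X)
    (Nat.mod (Nat.div (Nat.div (Nat.div (Nat.div (Nat.div P X) X) X) X) X) X)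
    (Nat.mod (Nat.div (Nat.div (Nat.div (Nat.div (Nat.div Q X) X) X) X) X) X)
    (Nat.mod (Nat.div (Nat.div (Nat.div (Nat.div (Nat.div (Nat.div P X) X) X) X) X) X) X)
    (Nat.mod (Nat.div (Nat.div (Nat.div (Nat.div (Nat.div (Nat.div Q X) X) X) X) X) X) X)
    (Nat.mod (Nat.div (Nat.div (Nat.div (Nat.div (Nat.div (Nat.div (Nat.div P X) X) X) X) X) X) X) X)
    (Nat.mod (Nat.div (Nat.div (Nat.div (Nat.div (Nat.div (Nat.div (Nat.div Q X) X) X) X) X) X) X) X)
    (Nat.mod (Nat.div (Nat.div (Nat.div (Nat.div (Nat.div (Nat.div (Nat.div (Nat.div P X) X) X) X) X) X) X) X) X)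
    (Nat.mod (Nat.div (Nat.div (Nat.div (Nat.div (Nat.div (Nat.div (Nat.div (Nat.div Q X) X) X) X) X) X) X) X) X)
    (Nat.mod (Nat.div (Nat.div (Nat.div (Nat.div (Nat.div (Nat.div (Nat.div (Nat.div (Nat.div P X) X) X) X) X) X) X) X) X) X)
    (Nat.mod (Nat.div (Nat.div (Nat.div (Nat.div (Nat.div (Nat.div (Nat.div (Nat.div (Nat.div Q X) X) X) X) X) X) X) X) X) X)

lemma leafR4_eq (X P Q w : ℕ) : leafR4 X P Q = leafC4 X P Q w [] := by
  rw [leafR4, coposR4_eq]
  rfl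

/-- The packed test of `leafC5` on primitive operations. -/
def leafR5 (X P Q : ℕ) : Bool :=
  coposR5
    (Nat.mod P X)
    (Nat.mod Q X)
    (Nat.mod (Nat.div P X) X)
    (Nat.mod (Nat.div Q X) X)
    (Nat.mod (Nat.div (Nat.div P X) X) X)
    (Nat.mod (Nat.div (Nat.div Q X) X) X)
    (Nat.mod (Nat.div (Nat.div (Nat.div P X) X) X) X)
    (Nat.mod (Nat.div (Nat.div (Nat.div Q X) X) X) X)
    (Nat.mod (Nat.div (Nat.div (Nat.div (Nat.div P X) X) X) X) X)
    (Nat.mod (Nat.div (Nat.div (Nat.div (Nat.div Q X) X) X) X) X)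
    (Nat.mod (Nat.div (Nat.div (Nat.div (Nat.div (Nat.div P X) X) X) X) X) X)
    (Nat.mod (Nat.div (Nat.div (Nat.div (Nat.div (Nat.div Q X) X) X) X) X) X)
    (Nat.mod (Nat.div (Nat.div (Nat.div (Nat.div (Nat.div (Nat.div P X) X) X) X) X) X) X)
    (Nat.mod (Nat.div (Nat.div (Nat.div (Nat.div (Nat.div (Nat.div Q X) X) X) X) X) X) X)
    (Nat.mod (Nat.div (Nat.div (Nat.div (Nat.div (Nat.div (Nat.div (Nat.div P X) X) X) X) X) X) X) X)
    (Nat.mod (Nat.div (Nat.div (Nat.div (Nat.div (Nat.div (Nat.div (Nat.div Q X) X) X) X) X) X) X) X)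
    (Nat.mod (Nat.div (Nat.div (Nat.div (Nat.div (Nat.div (Nat.div (Nat.div (Nat.div P X) X) X) X) X) X) X) X) X)
    (Nat.mod (Nat.div (Nat.div (Nat.div (Nat.div (Nat.div (Nat.div (Nat.div (Nat.div Q X) X) X) X) X) X) X) X) X)
    (Nat.mod (Nat.div (Nat.div (Nat.div (Nat.div (Nat.div (Nat.div (Nat.div (Nat.div (Nat.div P X) X) X) X) X) X) X) X) X) X)
    (Nat.mod (Nat.div (Nat.div (Nat.div (Nat.div (Nat.div (Nat.div (Nat.div (Nat.div (Nat.div Q X) X) X) X) X) X) X) X) X) X)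
    (Nat.mod (Nat.div (Nat.div (Nat.div (Nat.div (Nat.div (Nat.div (Nat.div (Nat.div (Nat.div (Nat.div P X) X) X) X) X) X) X) X) X) X) X)
    (Nat.mod (Nat.div (Nat.div (Nat.div (Nat.div (Nat.div (Nat.div (Nat.div (Nat.div (Nat.div (Nat.div Q X) X) X) X) X) X) X) X) X) X) X)
    (Nat.mod (Nat.div (Nat.div (Nat.div (Nat.div (Nat.div (Nat.div (Nat.div (Nat.div (Nat.div (Nat.div (Nat.div P X) X) X) X) X) X) X) X) X) X) X) X)
    (Nat.mod (Nat.div (Nat.div (Nat.div (Nat.div (Nat.div (Nat.div (Nat.div (Nat.div (Nat.div (Nat.div (Nat.div Q X) X) X) X) X) X) X) X) X) X) X) X)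
    (Nat.mod (Nat.div (Nat.div (Nat.div (Nat.div (Nat.div (Nat.div (Nat.div (Nat.div (Nat.div (Nat.div (Nat.div (Nat.div P X) X) X) X) X) X) X) X) X) X) X) X) X)
    (Nat.mod (Nat.div (Nat.div (Nat.div (Nat.div (Nat.div (Nat.div (Nat.div (Nat.div (Nat.div (Nat.div (Nat.div (Nat.div Q X) X) X) X) X) X) X) X) X) X) X) X) X)
    (Nat.mod (Nat.div (Nat.div (Nat.div (Nat.div (Nat.div (Nat.div (Nat.div (Nat.div (Nat.div (Nat.div (Nat.div (Nat.div (Nat.div P X) X) X) X) X) X) X) X) X) X) X) X) X) X)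
    (Nat.mod (Nat.div (Nat.div (Nat.div (Nat.div (Nat.div (Nat.div (Nat.div (Nat.div (Nat.div (Nat.div (Nat.div (Nat.div (Nat.div Q X) X) X) X) X) X) X) X) X) X) X) X) X) X)
    (Nat.mod (Nat.div (Nat.div (Nat.div (Nat.div (Nat.div (Nat.div (Nat.div (Nat.div (Nat.div (Nat.div (Nat.div (Nat.div (Nat.div (Nat.div P X) X) X) X) X) X) X) X) X) X) X) X) X) X) X)
    (Nat.mod (Nat.div (Nat.div (Nat.div (Nat.div (Nat.div (Nat.div (Nat.div (Nat.div (Nat.div (Nat.div (Nat.div (Nat.div (Nat.div (Nat.div Q X) X) X) X) X) X) X) X) X) X) X) X) X) X) X)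

lemma leafR5_eq (X P Q w : ℕ) : leafR5 X P Q = leafC5 X P Q w [] := by
  rw [leafR5, coposR5_eq]
  rfl

/-- One box in three variables, by the recursors. -/
def boxR (D X N : ℕ) (leaf : ℕ → ℕ → ℕ → Bool) (a b c P Q B l0 h0 l1 h1 l2 h2 : ℕ) : Bool :=
  cond (Nat.blt l0 h0) (cond (Nat.blt l1 h1) (cond (Nat.blt l2 h2) (cond (Nat.blt B X)
    (allR (fun k0 =>
      cond (Nat.blt (Nat.mul (sumP k0) B) X)
        (allR (fun k1 =>
          cond (Nat.blt (Nat.mul (sumP k1) (Nat.mul (sumP k0) B)) X)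
            (allR (fun k2 =>
              cond (Nat.blt (Nat.mul (sumP k2) (Nat.mul (sumP k1) (Nat.mul (sumP k0) B))) X)
                (leaf X
                  (dotP k2 (splitP (Nat.pow X N) (Nat.succ c)
                    (dotP k1 (splitP (Nat.pow X (Nat.mul (Nat.succ c) N)) (Nat.succ b)
                      (dotP k0 (splitP (Nat.pow X (Nat.mul (Nat.succ b) (Nat.mul (Nat.succ c) N)))
                        (Nat.succ a) P))))))
                  (dotP k2 (splitP (Nat.pow X N) (Nat.succ c)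
                    (dotP k1 (splitP (Nat.pow X (Nat.mul (Nat.succ c) N)) (Nat.succ b)
                      (dotP k0 (splitP (Nat.pow X (Nat.mul (Nat.succ b) (Nat.mul (Nat.succ c) N)))
                        (Nat.succ a) Q)))))))
                false) (bern D c l2 h2))
            false) (bern D b l1 h1))
        false) (bern D a l0 h0))
    false) false) false) false

/-- Bisection trees of boxes in three variables, by the recursors. -/
def treeR (D X N : ℕ) (leaf : ℕ → ℕ → ℕ → Bool) (a b c P Q B : ℕ) (t : Bisect) :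
    ℕ → ℕ → ℕ → ℕ → ℕ → ℕ → Bool :=
  Bisect.rec (fun l0 h0 l1 h1 l2 h2 => boxR D X N leaf a b c P Q B l0 h0 l1 h1 l2 h2)
    (fun k m _ _ lo hi l0 h0 l1 h1 l2 h2 =>
      cond (Nat.beq k 0) (cond (lo l0 m l1 h1 l2 h2) (hi m h0 l1 h1 l2 h2) false)
        (cond (Nat.beq k 1) (cond (lo l0 h0 l1 m l2 h2) (hi l0 h0 m h1 l2 h2) false)
          (cond (Nat.beq k 2) (cond (lo l0 h0 l1 h1 l2 m) (hi l0 h0 l1 h1 m h2) false) false)))
    t

variable {D X N a b c P Q B : ℕ} {leaf : ℕ → ℕ → ℕ → ℕ → List ℕ → Bool}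
  {leafR : ℕ → ℕ → ℕ → Bool}

lemma boxR_sound (hleaf : ∀ X P Q w, leafR X P Q = leaf X P Q w []) {l0 h0 l1 h1 l2 h2 : ℕ}
    (h : boxR D X N leafR a b c P Q B l0 h0 l1 h1 l2 h2 = true) :
    checkTree D X N leaf [] [a, b, c] P Q B .leaf [(l0, h0), (l1, h1), (l2, h2)] = true := by
  simp only [boxR, allR_eq, dotP_eq, splitP_eq, sumP_eq, Bool.cond_false_right, Bool.and_eq_true,
    List.all_eq_true] at h
  obtain ⟨g0, g1, g2, gB, h⟩ := h
  simp only [checkTree, List.all_cons, List.all_nil, Bool.and_eq_true, g0, g1, g2, oneCell, check,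
    chain, okMult, size, List.all_eq_true, Nat.ble_eq, le_refl, gB,
    Bool.true_and, Bool.and_true, true_and, and_true]
  intro k0 m0
  obtain ⟨b1, h⟩ := h k0 m0
  refine ⟨b1, fun k1 m1 => ?_⟩
  obtain ⟨b2, h⟩ := h k1 m1
  refine ⟨b2, fun k2 m2 => ?_⟩
  obtain ⟨b3, h⟩ := h k2 m2
  exact ⟨b3, (hleaf _ _ _ _).symm.trans h⟩

/-- The fast checker implies the checker. -/
theorem treeR_sound (hleaf : ∀ X P Q w, leafR X P Q = leaf X P Q w []) :
    ∀ (t : Bisect) {l0 h0 l1 h1 l2 h2 : ℕ},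
      treeR D X N leafR a b c P Q B t l0 h0 l1 h1 l2 h2 = true →
        checkTree D X N leaf [] [a, b, c] P Q B t [(l0, h0), (l1, h1), (l2, h2)] = true
  | .leaf, _, _, _, _, _, _, h => boxR_sound hleaf h
  | .node k m l r, l0, h0, l1, h1, l2, h2, h => by
    have hl := fun {a0 b0 a1 b1 a2 b2 : ℕ} => treeR_sound hleaf l (l0 := a0) (h0 := b0) (l1 := a1)
      (h1 := b1) (l2 := a2) (h2 := b2)
    have hr := fun {a0 b0 a1 b1 a2 b2 : ℕ} => treeR_sound hleaf r (l0 := a0) (h0 := b0) (l1 := a1)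
      (h1 := b1) (l2 := a2) (h2 := b2)
    have and_of : ∀ {x y : Bool}, cond x y false = true → x = true ∧ y = true := fun {x y} e => by
      cases x <;> simp_all
    match k, h with
    | 0, h =>
      have g : cond (treeR D X N leafR a b c P Q B l l0 m l1 h1 l2 h2)
          (treeR D X N leafR a b c P Q B r m h0 l1 h1 l2 h2) false = true := h
      exact checkTree_node (hl (and_of g).1) (hr (and_of g).2)
    | 1, h =>
      have g : cond (treeR D X N leafR a b c P Q B l l0 h0 l1 m l2 h2)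
          (treeR D X N leafR a b c P Q B r l0 h0 m h1 l2 h2) false = true := h
      exact checkTree_node (hl (and_of g).1) (hr (and_of g).2)
    | 2, h =>
      have g : cond (treeR D X N leafR a b c P Q B l l0 h0 l1 h1 l2 m)
          (treeR D X N leafR a b c P Q B r l0 h0 l1 h1 m h2) false = true := h
      exact checkTree_node (hl (and_of g).1) (hr (and_of g).2)
    | k + 3, h => exact absurd (show false = true from h) Bool.false_ne_true

/-- The fast checker for four coordinates. -/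
theorem checkTree_of_treeR4 {t : Bisect} {l0 h0 l1 h1 l2 h2 : ℕ}
    (h : treeR D X N leafR4 a b c P Q B t l0 h0 l1 h1 l2 h2 = true) :
    checkTree D X N leafC4 [] [a, b, c] P Q B t [(l0, h0), (l1, h1), (l2, h2)] = true :=
  treeR_sound leafR4_eq t h

/-- The fast checker for five coordinates. -/
theorem checkTree_of_treeR5 {t : Bisect} {l0 h0 l1 h1 l2 h2 : ℕ}
    (h : treeR D X N leafR5 a b c P Q B t l0 h0 l1 h1 l2 h2 = true) :
    checkTree D X N leafC5 [] [a, b, c] P Q B t [(l0, h0), (l1, h1), (l2, h2)] = true :=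
  treeR_sound leafR5_eq t h

end

end Vale.Agent.P098.Check
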