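import Vale.Agent.P098.Check.Tree

/-!
P098, positivity checker: a matrix polynomial in three variables given entry by entry.
-/

namespace Vale.Agent.P098.Check

/-- The first `k` columns, for entries of any type. -/
def colsOf {α : Type} (dflt : α) : ℕ → List (List α) → List (List α)
  | 0, _ => []
  | k + 1, t => t.map (·.headD dflt) :: colsOf dflt k (t.map List.tail)

/-- The coefficient vectors, nested by exponents. -/
def gather (a b c : ℕ) (Es : List (List (List (List ℤ)))) : List (List (List (List ℤ))) :=
  (colsOf [] (a + 1) Es).map fun l => (colsOf [] (b + 1) l).map fun m => colsOf 0 (c + 1) m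

/-- All entries have the shape `(a + 1) × (b + 1) × (c + 1)`. -/
def shaped (a b c : ℕ) (Es : List (List (List (List ℤ)))) : Bool :=
  Es.all fun E => Nat.beq E.length (a + 1) && E.all fun l => Nat.beq l.length (b + 1) &&
    l.all fun m => Nat.beq m.length (c + 1)

/-- The digits of the positive part. -/
def posDigits (a b c : ℕ) (Es : List (List (List (List ℤ)))) : List ℕ :=
  ((gather a b c Es).map fun l => (l.map fun m => (m.map (List.map Int.toNat)).flatten).flatten).flatten

/-- The digits of the negative part. -/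
def negDigits (a b c : ℕ) (Es : List (List (List (List ℤ)))) : List ℕ :=
  ((gather a b c Es).map fun l =>
    (l.map fun m => (m.map (List.map fun z => Int.toNat (-z))).flatten).flatten).flatten

noncomputable section

/-- Weights against values. -/
def dotW : List ℝ → List ℝ → ℝ
  | m :: ms, v :: vs => m * v + dotW ms vs
  | _, _ => 0

/-- The value of one entry. -/
def evalEntry (E : List (List (List ℤ))) (x y z : ℝ) : ℝ :=
  hornerR x (E.map fun l => hornerR y (l.map fun m => hornerR z (m.map fun n : ℤ => (n : ℝ))))

lemma horner_sub (x : ℝ) {α : Type} (f g : α → ℝ) : ∀ l : List α,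
    hornerR x (l.map f) - hornerR x (l.map g) = hornerR x (l.map fun a => f a - g a)
  | [] => by simp [hornerR]
  | a :: l => by simp only [List.map_cons, hornerR, ← horner_sub x f g l]; ring

lemma horner_colsOf {α : Type} (dflt : α) (x : ℝ) (φ : α → ℝ) :
    ∀ (k : ℕ) (T : List (List α)) (w : List ℝ), (∀ r ∈ T, r.length = k) →
    hornerR x ((colsOf dflt k T).map fun col => dotW w (col.map φ)) =
      dotW w (T.map fun r => hornerR x (r.map φ))
  | 0, T, w, h => by
    induction T generalizing w with
    | nil => cases w <;> simp [colsOf, hornerR, dotW]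
    | cons r T ih =>
      have hr : r = [] := List.length_eq_zero_iff.1 (h r List.mem_cons_self)
      cases w with
      | nil => simp [colsOf, hornerR, dotW]
      | cons e w =>
        have := ih w fun x hx => h x (List.mem_cons_of_mem r hx)
        simp [colsOf, hornerR, dotW, hr] at this ⊢
        linarith
  | k + 1, T, w, h => by
    have hT : ∀ r ∈ T.map List.tail, r.length = k := fun r hr => by
      obtain ⟨s, hs, rfl⟩ := List.mem_map.1 hr
      simp [h s hs]
    rw [colsOf, List.map_cons, hornerR, horner_colsOf dflt x φ k _ w hT]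
    induction T generalizing w with
    | nil => cases w <;> simp [dotW]
    | cons r T ih =>
      obtain ⟨c, r', rfl⟩ := List.exists_cons_of_length_eq_add_one (h r List.mem_cons_self)
      cases w with
      | nil => simp [dotW]
      | cons e w =>
        have := ih w (fun x hx => h x (List.mem_cons_of_mem _ hx))
          (fun x hx => hT x (List.mem_cons_of_mem _ hx))
        simp only [List.map_cons, List.headD_cons, List.tail_cons, dotW, hornerR] at this ⊢
        linarith

lemma colsOf_shape {α : Type} (dflt : α) : ∀ (k : ℕ) (T : List (List α)),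
    (∀ r ∈ T, r.length = k) → (colsOf dflt k T).length = k ∧
      ∀ col ∈ colsOf dflt k T, col.length = T.length ∧ ∀ e ∈ col, ∃ r ∈ T, e ∈ r
  | 0, T, _ => by simp [colsOf]
  | k + 1, T, h => by
    have hT : ∀ r ∈ T.map List.tail, r.length = k := fun r hr => by
      obtain ⟨s, hs, rfl⟩ := List.mem_map.1 hr
      simp [h s hs]
    obtain ⟨h1, h2⟩ := colsOf_shape dflt k _ hT
    refine ⟨by simp [colsOf, h1], fun col hc => ?_⟩
    rcases List.mem_cons.1 hc with rfl | hc
    · refine ⟨by simp, fun e he => ?_⟩
      obtain ⟨r, hr, rfl⟩ := List.mem_map.1 he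
      obtain ⟨c, r', rfl⟩ := List.exists_cons_of_length_eq_add_one (h r hr)
      exact ⟨_, hr, by simp⟩
    · obtain ⟨h3, h4⟩ := h2 col hc
      refine ⟨by simpa using h3, fun e he => ?_⟩
      obtain ⟨r, hr, her⟩ := h4 e he
      obtain ⟨s, hs, rfl⟩ := List.mem_map.1 hr
      exact ⟨s, hs, List.mem_of_mem_tail her⟩

lemma chunks_flatten {L : ℕ} : ∀ {bs : List (List ℕ)}, (∀ b ∈ bs, b.length = L) →
    chunks L bs.length bs.flatten = bs
  | [], _ => rfl
  | b :: bs, h => by
    rw [List.length_cons, List.flatten_cons, chunks, List.take_left' (h b List.mem_cons_self),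
      List.drop_left' (h b List.mem_cons_self),
      chunks_flatten fun x hx => h x (List.mem_cons_of_mem b hx)]

lemma length_flatten_const {α : Type} {L : ℕ} : ∀ {bs : List (List α)}, (∀ b ∈ bs, b.length = L) →
    bs.flatten.length = bs.length * L
  | [], _ => by simp
  | b :: bs, h => by
    rw [List.flatten_cons, List.length_append, h b List.mem_cons_self,
      length_flatten_const fun x hx => h x (List.mem_cons_of_mem b hx), List.length_cons]
    ring

lemma dotR_sub : ∀ (v : List ℤ) (mon : List ℝ),
    dotR (v.map Int.toNat) mon - dotR (v.map fun z => Int.toNat (-z)) mon =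
      dotW mon (v.map fun n : ℤ => (n : ℝ))
  | [], mon => by cases mon <;> simp [dotR, dotW]
  | _ :: _, [] => by simp [dotR, dotW]
  | z :: v, m :: mon => by
    have hz : ((z.toNat : ℕ) : ℝ) - ((-z).toNat : ℕ) = (z : ℝ) := by
      exact_mod_cast Int.toNat_sub_toNat_neg z
    simp only [List.map_cons, dotR, dotW, ← dotR_sub v mon, ← hz]
    ring

lemma evalP_nested {N a b c : ℕ} (mon : List ℝ) {F : List (List (List (List ℕ)))}
    (ha : F.length = a + 1) (hb : ∀ l ∈ F, l.length = b + 1)
    (hc : ∀ l ∈ F, ∀ m ∈ l, m.length = c + 1) (hN : ∀ l ∈ F, ∀ m ∈ l, ∀ v ∈ m, v.length = N)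
    (x y z : ℝ) :
    evalP N mon [a, b, c] (F.map fun l => (l.map fun m => m.flatten).flatten).flatten [x, y, z] =
      hornerR x (F.map fun l => hornerR y (l.map fun m => hornerR z (m.map fun v => dotR v mon))) := by
  have h3 : ∀ l ∈ F, ∀ m ∈ l, m.flatten.length = size N [c] := fun l hl m hm => by
    rw [length_flatten_const (hN l hl m hm), hc l hl m hm]; simp [size]
  have h2 : ∀ l ∈ F, (l.map fun m => m.flatten).flatten.length = size N [b, c] := fun l hl => by
    rw [length_flatten_const (L := size N [c]) fun w hw => by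
      obtain ⟨m, hm, rfl⟩ := List.mem_map.1 hw
      exact h3 l hl m hm, List.length_map, hb l hl]
    simp [size]
  simp only [evalP]
  rw [← ha, ← List.length_map (f := fun l : List (List (List ℕ)) => (l.map fun m => m.flatten).flatten)
    (as := F), chunks_flatten fun w hw => by
      obtain ⟨l, hl, rfl⟩ := List.mem_map.1 hw
      exact h2 l hl, List.map_map]
  congr 1
  refine List.map_congr_left fun l hl => ?_
  simp only [Function.comp_apply]
  rw [← hb l hl, ← List.length_map (f := fun m : List (List ℕ) => m.flatten) (as := l),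
    chunks_flatten fun w hw => by
      obtain ⟨m, hm, rfl⟩ := List.mem_map.1 hw
      exact h3 l hl m hm, List.map_map]
  congr 1
  refine List.map_congr_left fun m hm => ?_
  simp only [Function.comp_apply]
  rw [← hc l hl m hm, chunks_flatten (L := size N []) fun w hw => hN l hl m hm w hw]

/-- The flat digits against monomials are the entries against monomials. -/
theorem evalP_entries {N a b c : ℕ} {Es : List (List (List (List ℤ)))}
    (hs : shaped a b c Es = true) (hN : Es.length = N) (mon : List ℝ) (x y z : ℝ) :
    evalP N mon [a, b, c] (posDigits a b c Es) [x, y, z] -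
        evalP N mon [a, b, c] (negDigits a b c Es) [x, y, z] =
      dotW mon (Es.map fun E => evalEntry E x y z) := by
  simp only [shaped, List.all_eq_true, Bool.and_eq_true, Nat.beq_eq] at hs
  obtain ⟨ga, gmem⟩ := colsOf_shape ([] : List (List ℤ)) (a + 1) Es fun E hE => (hs E hE).1
  have hl : ∀ l ∈ colsOf [] (a + 1) Es, l.length = N ∧ (∀ r ∈ l, r.length = b + 1) ∧
      (colsOf [] (b + 1) l).length = b + 1 ∧
      ∀ m ∈ colsOf [] (b + 1) l, m.length = N ∧ (∀ r ∈ m, r.length = c + 1) ∧
        (colsOf (0 : ℤ) (c + 1) m).length = c + 1 ∧ ∀ v ∈ colsOf (0 : ℤ) (c + 1) m, v.length = N := by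
    intro l hl
    obtain ⟨g1, g2⟩ := gmem l hl
    have hb : ∀ r ∈ l, r.length = b + 1 := fun r hr => by
      obtain ⟨E, hE, hr⟩ := g2 r hr
      exact ((hs E hE).2 r hr).1
    obtain ⟨g3, g4⟩ := colsOf_shape ([] : List ℤ) (b + 1) l hb
    refine ⟨g1.trans hN, hb, g3, fun m hm => ?_⟩
    obtain ⟨g5, g6⟩ := g4 m hm
    have hc : ∀ r ∈ m, r.length = c + 1 := fun r hr => by
      obtain ⟨w, hw, hr⟩ := g6 r hr
      obtain ⟨E, hE, hw⟩ := g2 w hw
      exact ((hs E hE).2 w hw).2 r hr
    obtain ⟨g7, g8⟩ := colsOf_shape (0 : ℤ) (c + 1) m hc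
    exact ⟨g5.trans (g1.trans hN), hc, g7, fun v hv => (g8 v hv).1.trans (g5.trans (g1.trans hN))⟩
  have key : ∀ f : ℤ → ℕ, evalP N mon [a, b, c]
      ((gather a b c Es).map fun l => (l.map fun m => (m.map (List.map f)).flatten).flatten).flatten
      [x, y, z] =
      hornerR x ((colsOf [] (a + 1) Es).map fun l => hornerR y ((colsOf [] (b + 1) l).map
        fun m => hornerR z ((colsOf (0 : ℤ) (c + 1) m).map fun v => dotR (v.map f) mon))) := by
    intro f
    have h := evalP_nested (N := N) (a := a) (b := b) (c := c) mon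
      (F := (gather a b c Es).map fun l => l.map fun m => m.map (List.map f))
      (by simp [gather, ga]) ?_ ?_ ?_ x y z
    · simp only [gather, List.map_map] at h ⊢
      simpa [Function.comp_def] using h
    · intro l hm
      simp only [gather, List.mem_map] at hm
      obtain ⟨_, ⟨l', hl', rfl⟩, rfl⟩ := hm
      simp [(hl l' hl').2.2.1]
    · intro l hm m hm'
      simp only [gather, List.mem_map] at hm
      obtain ⟨_, ⟨l', hl', rfl⟩, rfl⟩ := hm
      simp only [List.mem_map] at hm'
      obtain ⟨_, ⟨m', hm1, rfl⟩, rfl⟩ := hm'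
      simp [((hl l' hl').2.2.2 m' hm1).2.2.1]
    · intro l hm m hm' v hv
      simp only [gather, List.mem_map] at hm
      obtain ⟨_, ⟨l', hl', rfl⟩, rfl⟩ := hm
      simp only [List.mem_map] at hm'
      obtain ⟨_, ⟨m', hm1, rfl⟩, rfl⟩ := hm'
      simp only [List.mem_map] at hv
      obtain ⟨v', hv', rfl⟩ := hv
      simp [((hl l' hl').2.2.2 m' hm1).2.2.2 v' hv']
  simp only [evalEntry]
  rw [posDigits, negDigits, key Int.toNat, key fun z => Int.toNat (-z), horner_sub,
    ← horner_colsOf [] x (fun l : List (List ℤ) => hornerR y (l.map fun m => hornerR z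
      (m.map fun n : ℤ => (n : ℝ)))) (a + 1) Es mon fun E hE => (hs E hE).1]
  congr 1
  refine List.map_congr_left fun l hl' => ?_
  rw [horner_sub, ← horner_colsOf [] y (fun m : List ℤ => hornerR z (m.map fun n : ℤ => (n : ℝ)))
    (b + 1) l mon (hl l hl').2.1]
  congr 1
  refine List.map_congr_left fun m hm => ?_
  rw [horner_sub, ← horner_colsOf (0 : ℤ) z (fun n : ℤ => (n : ℝ)) (c + 1) m mon
    ((hl l hl').2.2.2 m hm).2.1]
  congr 1
  exact List.map_congr_left fun v _ => dotR_sub v mon

end

end Vale.Agent.P098.Check
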