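import Vale.Agent.P098.Check.Digits

/-!
P098, positivity checker: soundness over the reals.
-/

namespace Vale.Agent.P098.Check

noncomputable section

/-- Entries against monomials. -/
def dotR : List ℕ → List ℝ → ℝ
  | a :: e, m :: ms => a * m + dotR e ms
  | _, _ => 0

/-- Horner evaluation. -/
def hornerR (x : ℝ) : List ℝ → ℝ
  | [] => 0
  | a :: l => a + x * hornerR x l

/-- A homogeneous list at `(u, t)`. -/
def hev (u t : ℝ) : List ℝ → ℝ
  | [] => 0
  | a :: l => a * u ^ l.length + t * hev u t l

/-- Evaluation of a flat polynomial at a point, against the monomials of a vector. -/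
def evalP (N : ℕ) (mon : List ℝ) : List ℕ → List ℕ → List ℝ → ℝ
  | [], e, _ => dotR e mon
  | d :: ds, e, x :: xs => hornerR x ((chunks (size N ds) (d + 1) e).map fun c => evalP N mon ds c xs)
  | _ :: _, _, [] => 0

/-- The monomials of a quadratic form, upper triangle row by row. -/
def symMon : List ℝ → List ℝ
  | [] => []
  | x :: v => (x * x :: v.map fun y => 2 * (x * y)) ++ symMon v

/-- The allowed entries have nonnegative monomials. -/
def monOK : List Bool → List ℝ → Prop
  | c :: cs, m :: ms => (c = true → 0 ≤ m) ∧ monOK cs ms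
  | _, _ => True

/-- A point lies in a box given in units `1 / D`. -/
def InBox (D : ℕ) : List (ℕ × ℕ) → List ℝ → Prop
  | [], [] => True
  | (lo, hi) :: box, x :: xs => ((lo : ℝ) ≤ D * x ∧ D * x ≤ hi) ∧ InBox D box xs
  | _, _ => False

lemma dotR_zipWith (k : ℕ) : ∀ {a b : List ℕ} (ms : List ℝ), a.length = b.length →
    dotR (List.zipWith (fun x y => k * x + y) a b) ms = k * dotR a ms + dotR b ms
  | [], [], _, _ => by simp [dotR]
  | _ :: _, _ :: _, [], _ => by simp [dotR]
  | x :: a, y :: b, m :: ms, h => by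
    simp only [List.zipWith_cons_cons, dotR, dotR_zipWith k ms (Nat.succ.inj h)]
    push_cast
    ring

lemma chunks_zipWith (f : ℕ → ℕ → ℕ) (L : ℕ) : ∀ (n : ℕ) (a b : List ℕ),
    chunks L n (List.zipWith f a b) =
      List.zipWith (List.zipWith f) (chunks L n a) (chunks L n b)
  | 0, _, _ => rfl
  | n + 1, a, b => by
    simp [chunks, List.take_zipWith, List.drop_zipWith, chunks_zipWith f L n]

lemma evalP_zipWith (N k : ℕ) (mon : List ℝ) : ∀ (ds : List ℕ) (a b : List ℕ) (xs : List ℝ),
    a.length = size N ds → b.length = size N ds →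
    evalP N mon ds (List.zipWith (fun x y => k * x + y) a b) xs =
      k * evalP N mon ds a xs + evalP N mon ds b xs
  | [], a, b, xs, ha, hb => dotR_zipWith k mon (ha.trans hb.symm)
  | _ :: _, _, _, [], _, _ => by simp [evalP]
  | d :: ds, a, b, x :: xs, ha, hb => by
    simp only [evalP]
    have key : ∀ (n : ℕ) (a b : List ℕ), a.length = n * size N ds → b.length = n * size N ds →
        hornerR x ((chunks (size N ds) n (List.zipWith (fun x y => k * x + y) a b)).map
          fun c => evalP N mon ds c xs) =
        k * hornerR x ((chunks (size N ds) n a).map fun c => evalP N mon ds c xs) +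
          hornerR x ((chunks (size N ds) n b).map fun c => evalP N mon ds c xs) := by
      intro n
      induction n with
      | zero => intros; simp [chunks, hornerR]
      | succ n ih =>
        intro a b ha hb
        have hs : (n + 1) * size N ds = size N ds + n * size N ds := by ring
        simp only [chunks, List.map_cons, hornerR, List.take_zipWith, List.drop_zipWith]
        rw [ih _ _ (by simp [ha, hs]) (by simp [hb, hs]),
          evalP_zipWith N k mon ds _ _ xs (by simp [ha, hs]) (by simp [hb, hs])]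
        ring
    exact key (d + 1) a b ha hb

lemma evalP_replicate (N : ℕ) (mon : List ℝ) : ∀ (ds : List ℕ) (L : ℕ) (xs : List ℝ),
    evalP N mon ds (List.replicate L 0) xs = 0
  | [], L, _ => by
    show dotR _ _ = 0
    induction L generalizing mon with
    | zero => simp [dotR]
    | succ L ih => cases mon <;> simp [List.replicate_succ, dotR, ih]
  | _ :: _, _, [] => by simp [evalP]
  | d :: ds, L, x :: xs => by
    simp only [evalP]
    have key : ∀ n L, hornerR x ((chunks (size N ds) n (List.replicate L 0)).map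
        fun c => evalP N mon ds c xs) = 0 := by
      intro n
      induction n with
      | zero => intro L; simp [chunks, hornerR]
      | succ n ih =>
        intro L
        simp [chunks, hornerR, List.take_replicate, List.drop_replicate, ih,
          evalP_replicate N mon ds]
    exact key _ _

/-- Combination of reals by natural coefficients. -/
def combR : List ℕ → List ℝ → ℝ
  | k :: ks, q :: qs => k * q + combR ks qs
  | _, _ => 0

lemma evalP_comb (N : ℕ) (mon : List ℝ) (ds : List ℕ) (xs : List ℝ) :
    ∀ (ks : List ℕ) {cs : List (List ℕ)}, (∀ c ∈ cs, c.length = size N ds) →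
    evalP N mon ds (comb (size N ds) ks cs) xs = combR ks (cs.map fun c => evalP N mon ds c xs)
  | [], cs, _ => by cases cs <;> simp [comb, combR, evalP_replicate]
  | k :: ks, [], _ => by simp [comb, combR, evalP_replicate]
  | k :: ks, c :: cs, h => by
    have h' : ∀ x ∈ cs, x.length = size N ds := fun x hx => h x (List.mem_cons_of_mem c hx)
    rw [comb, evalP_zipWith N k mon ds _ _ xs (h c List.mem_cons_self) (comb_length ks h'),
      evalP_comb N mon ds xs ks h', List.map_cons, combR]

lemma hev_mulGo (u t : ℝ) (a b : ℕ) : ∀ (p : ℕ) (l : List ℕ),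
    hev u t ((mulGo a b p l).map fun n : ℕ => (n : ℝ)) =
      b * p * u ^ l.length + (a * u + b * t) * hev u t (l.map fun n : ℕ => (n : ℝ)) ∧
    (mulGo a b p l).length = l.length + 1
  | p, [] => by simp [mulGo, hev]
  | p, c :: cs => by
    obtain ⟨h1, h2⟩ := hev_mulGo u t a b c cs
    refine ⟨?_, by simp [mulGo, h2]⟩
    simp only [mulGo, List.map_cons, hev, h1, List.length_map, h2, List.length_cons]
    push_cast
    ring

lemma hev_mulLin (u t : ℝ) (a b : ℕ) : ∀ l : List ℕ, l ≠ [] →
    hev u t ((mulLin a b l).map fun n : ℕ => (n : ℝ)) =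
      (a * u + b * t) * hev u t (l.map fun n : ℕ => (n : ℝ)) ∧
    (mulLin a b l).length = l.length + 1
  | [], h => absurd rfl h
  | c :: cs, _ => by
    obtain ⟨h1, h2⟩ := hev_mulGo u t a b c cs
    refine ⟨?_, by simp [mulLin, h2]⟩
    simp only [mulLin, List.map_cons, hev, h1, List.length_map, h2]
    push_cast
    ring

lemma binRow_spec (u t : ℝ) : ∀ n, hev u t ((binRow n).map fun k : ℕ => (k : ℝ)) = (u + t) ^ n ∧
    (binRow n).length = n + 1
  | 0 => by simp [binRow, hev]
  | n + 1 => by
    obtain ⟨h1, h2⟩ := binRow_spec u t n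
    obtain ⟨h3, h4⟩ := hev_mulLin u t 1 1 (binRow n) (List.ne_nil_of_length_eq_add_one h2)
    refine ⟨?_, by rw [binRow, h4, h2]⟩
    rw [binRow, h3, h1]
    push_cast
    ring

lemma hev_const_mul (u t c : ℝ) : ∀ l : List ℝ, hev u t (l.map (c * ·)) = c * hev u t l
  | [] => by simp [hev]
  | a :: l => by simp [hev, hev_const_mul u t c l]; ring

/-- The rows of the table against a polynomial. -/
def rowSum (u t : ℝ) : List (List ℕ) → List ℝ → ℝ
  | r :: rs, q :: qs => hev u t (r.map fun n : ℕ => (n : ℝ)) * q + rowSum u t rs qs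
  | _, _ => 0

lemma rowSum_table (u t x : ℝ) (D a b : ℕ) (hut : u + t = 1) (hx : (D : ℝ) * x = a * u + b * t) :
    ∀ (d : ℕ) (q : List ℝ), q.length = d + 1 →
    rowSum u t (table D a b d) q = (D : ℝ) ^ d * hornerR x q ∧
      ∀ r ∈ table D a b d, r.length = d + 1
  | 0, [c], _ => by simp [table, rowSum, hev, hornerR]
  | d + 1, c :: q, h => by
    obtain ⟨h1, h2⟩ := rowSum_table u t x D a b hut hx d q (Nat.succ.inj h)
    obtain ⟨h3, h4⟩ := binRow_spec u t (d + 1)
    refine ⟨?_, fun r hr => ?_⟩
    · have hmap : ∀ (rs : List (List ℕ)) (q : List ℝ), (∀ r ∈ rs, r.length = d + 1) →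
          rowSum u t (rs.map (mulLin a b)) q = (a * u + b * t) * rowSum u t rs q := by
        intro rs
        induction rs with
        | nil => intro q _; simp [rowSum]
        | cons r rs ih =>
          intro q hr
          cases q with
          | nil => simp [rowSum]
          | cons e q =>
            simp only [List.map_cons, rowSum, ih q fun x hx => hr x (List.mem_cons_of_mem r hx),
              (hev_mulLin u t a b r (List.ne_nil_of_length_eq_add_one (hr r List.mem_cons_self))).1]
            ring
      rw [table, rowSum, hmap _ _ h2, h1, hornerR, ← hx]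
      have : hev u t (((binRow (d + 1)).map (D ^ (d + 1) * ·)).map fun n : ℕ => (n : ℝ)) =
          (D : ℝ) ^ (d + 1) := by
        rw [List.map_map, show ((fun n : ℕ => (n : ℝ)) ∘ (D ^ (d + 1) * ·)) =
          (((D : ℝ) ^ (d + 1)) * ·) ∘ (fun n : ℕ => (n : ℝ)) by funext n; simp, ← List.map_map,
          hev_const_mul, h3, hut, one_pow, mul_one]
      rw [this]
      ring
    · rw [table] at hr
      rcases List.mem_cons.1 hr with rfl | hr
      · simp [h4]
      · obtain ⟨s, hs, rfl⟩ := List.mem_map.1 hr
        rw [(hev_mulLin u t a b s (List.ne_nil_of_length_eq_add_one (h2 s hs))).2, h2 s hs]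

lemma cols_length : ∀ (k : ℕ) (T : List (List ℕ)), (cols k T).length = k
  | 0, _ => rfl
  | k + 1, T => by rw [cols, List.length_cons, cols_length k]

lemma hev_cols (u t : ℝ) : ∀ (k : ℕ) (T : List (List ℕ)) (q : List ℝ), (∀ r ∈ T, r.length = k) →
    hev u t ((cols k T).map fun ks => combR ks q) = rowSum u t T q
  | 0, T, q, h => by
    induction T generalizing q with
    | nil => simp [cols, hev, rowSum]
    | cons r T ih =>
      have hr : r = [] := List.length_eq_zero_iff.1 (h r List.mem_cons_self)
      have := ih (q := q.tail) fun x hx => h x (List.mem_cons_of_mem r hx)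
      cases q with
      | nil => simp [cols, hev, rowSum]
      | cons e q =>
        simp only [cols, List.map_nil, hev, rowSum, hr, List.tail_cons] at this ⊢
        linarith
  | k + 1, T, q, h => by
    have hT : ∀ r ∈ T.map List.tail, r.length = k := fun r hr => by
      obtain ⟨s, hs, rfl⟩ := List.mem_map.1 hr
      simp [h s hs]
    rw [cols, List.map_cons, hev, List.length_map, cols_length, hev_cols u t k _ q hT]
    induction T generalizing q with
    | nil => simp [combR, rowSum]
    | cons r T ih =>
      cases q with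
      | nil => simp [combR, rowSum]
      | cons e q =>
        have := ih q (fun x hx => h x (List.mem_cons_of_mem r hx))
          (fun x hx => hT x (List.mem_cons_of_mem _ hx))
        obtain ⟨c, r', rfl⟩ := List.exists_cons_of_length_eq_add_one (h r List.mem_cons_self)
        have hl : r'.length = k := Nat.succ.inj (h (c :: r') List.mem_cons_self)
        simp only [List.map_cons, List.headD_cons, List.tail_cons, combR, rowSum, hev,
          List.length_map, hl] at this ⊢
        linarith

lemma hev_mono {u t : ℝ} (hu : 0 ≤ u) (ht : 0 ≤ t) {α : Type} : ∀ {l : List α} {f g : α → ℝ},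
    (∀ x ∈ l, f x ≤ g x) → hev u t (l.map f) ≤ hev u t (l.map g)
  | [], _, _, _ => le_rfl
  | a :: l, f, g, h => by
    simp only [List.map_cons, hev, List.length_map]
    exact add_le_add (mul_le_mul_of_nonneg_right (h a List.mem_cons_self) (by positivity))
      (mul_le_mul_of_nonneg_left (hev_mono hu ht fun x hx => h x (List.mem_cons_of_mem a hx)) ht)

lemma exists_cell {C : Type} : ∀ {lo hi : ℕ} {l : List ((ℕ × ℕ) × C)} {y : ℝ},
    chain lo hi l = true → (lo : ℝ) ≤ y → y ≤ hi → (hi ≤ lo) ∨
      ∃ cell ∈ l, cell.1.1 < cell.1.2 ∧ (cell.1.1 : ℝ) ≤ y ∧ y ≤ cell.1.2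
  | lo, hi, [], y, h, _, _ => Or.inl (Nat.le_of_ble_eq_true h)
  | lo, hi, ((a, b), c) :: rest, y, h, h1, h2 => by
    simp only [chain, Bool.and_eq_true] at h
    have ha : a ≤ lo := Nat.le_of_ble_eq_true h.1.1
    have hab : a < b := Nat.le_of_ble_eq_true h.1.2
    have hay : (a : ℝ) ≤ y := le_trans (by exact_mod_cast ha) h1
    rcases le_or_gt y b with hb | hb
    · exact Or.inr ⟨_, List.mem_cons_self, hab, hay, hb⟩
    · rcases exists_cell h.2 hb.le h2 with hh | ⟨cell, hm, hc⟩
      · exact absurd (h2.trans (by exact_mod_cast hh)) (not_le.2 hb)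
      · exact Or.inr ⟨cell, List.mem_cons_of_mem _ hm, hc⟩

lemma dotR_addMult (w : ℕ) : ∀ {allowed : List Bool} {q mult : List ℕ} {mon : List ℝ},
    okMult allowed mult = true → monOK allowed mon → dotR q mon ≤ dotR (addMult w q mult) mon
  | _, [], _, _, _, _ => by simp [addMult]
  | _, _ :: _, [], _, _, _ => by simp [addMult]
  | _, _ :: _, _ :: _, [], _, _ => by simp [addMult, dotR]
  | [], x :: q, e :: mult, m :: mon, h, _ => by
    simp only [okMult, Bool.and_eq_true, Nat.beq_eq] at h
    have := dotR_addMult w (q := q) (mon := mon) h.2 (by simp [monOK])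
    simp only [addMult, dotR, h.1, mul_zero, add_zero]
    linarith
  | c :: cs, x :: q, e :: mult, m :: mon, h, hm => by
    simp only [okMult, Bool.and_eq_true, Bool.or_eq_true, Nat.beq_eq] at h
    have := dotR_addMult w (q := q) (mon := mon) h.2 hm.2
    simp only [addMult, dotR]
    rcases h.1 with hc | he
    · have hw : (0 : ℝ) ≤ (w : ℝ) * e := by positivity
      push_cast
      nlinarith [hm.1 hc, mul_nonneg hw (hm.1 hc)]
    · simp only [he, mul_zero, add_zero]
      linarith

/-- A leaf test is sound for `mon`. -/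
def LeafSound (N : ℕ) (leaf : ℕ → ℕ → ℕ → ℕ → List ℕ → Bool) (mon : List ℝ) : Prop :=
  ∀ X P Q w mult, leaf X P Q w mult = true →
    dotR (addMult w (splitN X N Q) mult) mon ≤ dotR (splitN X N P) mon

/-- Soundness of `check`. -/
theorem check_sound {D X N : ℕ} {leaf : ℕ → ℕ → ℕ → ℕ → List ℕ → Bool} {allowed : List Bool}
    {mon : List ℝ} (hD : 0 < D)
    (hleaf : LeafSound N leaf mon) (hmon : monOK allowed mon) :
    ∀ (ds : List ℕ) {p q : List ℕ} {B w : ℕ} {box : List (ℕ × ℕ)} {cov : Cover ds} {xs : List ℝ},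
      Digits (size N ds) B p → Digits (size N ds) B q →
      check D X N leaf allowed ds (packN X p) (packN X q) B w box cov = true →
      (∀ lh ∈ box, lh.1 < lh.2) → InBox D box xs →
      evalP N mon ds q xs ≤ evalP N mon ds p xs
  | [], p, q, B, w, box, cov, xs, hp, hq, h, _, _ => by
    simp only [check, Bool.and_eq_true] at h
    have hB : B < X := Nat.le_of_ble_eq_true h.1.1
    have ep : splitN X N (packN X p) = p := by
      conv_lhs => rw [← show p.length = N from hp.1]
      exact splitN_packN fun a ha => (hp.2 a ha).trans_lt hB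
    have eq' : splitN X N (packN X q) = q := by
      conv_lhs => rw [← show q.length = N from hq.1]
      exact splitN_packN fun a ha => (hq.2 a ha).trans_lt hB
    have key := hleaf X _ _ w cov h.2
    rw [ep, eq'] at key
    show dotR q mon ≤ dotR p mon
    exact (dotR_addMult w h.1.2 hmon).trans key
  | d :: ds, p, q, B, w, [], cov, xs, _, _, h, _, _ => by simp [check] at h
  | d :: ds, p, q, B, w, (lo, hi) :: box, cov, [], _, _, _, _, hx => hx.elim
  | d :: ds, p, q, B, w, (lo, hi) :: box, cov, x :: xs, hp, hq, h, hbox, hx => by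
    simp only [check, Bool.and_eq_true] at h
    obtain ⟨⟨hB, hch⟩, hall⟩ := h
    have hB' : B < X := Nat.le_of_ble_eq_true hB
    have hlh : lo < hi := hbox (lo, hi) List.mem_cons_self
    rcases exists_cell hch hx.1.1 hx.1.2 with hh | ⟨⟨⟨a, b⟩, C⟩, hm, hab, hay, hyb⟩
    · omega
    have hba : (0 : ℝ) < (b : ℝ) - a := sub_pos.2 (Nat.cast_lt.2 hab)
    obtain ⟨u, hu⟩ : ∃ u : ℝ, u = ((b : ℝ) - D * x) / ((b : ℝ) - a) := ⟨_, rfl⟩
    obtain ⟨t, ht⟩ : ∃ t : ℝ, t = ((D : ℝ) * x - a) / ((b : ℝ) - a) := ⟨_, rfl⟩
    have hu0 : 0 ≤ u := hu ▸ div_nonneg (by linarith) hba.le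
    have ht0 : 0 ≤ t := ht ▸ div_nonneg (by linarith) hba.le
    have hut : u + t = 1 := by rw [hu, ht]; field_simp; ring
    have hxe : (D : ℝ) * x = a * u + b * t := by rw [hu, ht]; field_simp; ring
    obtain ⟨hpl, hpc⟩ := Digits.chunk (n := d + 1) hp
    obtain ⟨hql, hqc⟩ := Digits.chunk (n := d + 1) hq
    obtain ⟨ps, hps⟩ : ∃ ps, ps = chunks (size N ds) (d + 1) p := ⟨_, rfl⟩
    obtain ⟨qs, hqs⟩ : ∃ qs, qs = chunks (size N ds) (d + 1) q := ⟨_, rfl⟩
    rw [← hps] at hpl hpc
    rw [← hqs] at hql hqc
    have key : ∀ (cs : List (List ℕ)), cs.length = d + 1 →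
        (D : ℝ) ^ d * hornerR x (cs.map fun c => evalP N mon ds c xs) =
          hev u t ((bern D d a b).map fun ks => combR ks (cs.map fun c => evalP N mon ds c xs)) := by
      intro cs hcs
      obtain ⟨h1, h2⟩ := rowSum_table u t x D a b hut hxe d (cs.map fun c => evalP N mon ds c xs)
        (by simp [hcs])
      rw [bern, hev_cols u t (d + 1) _ _ h2, h1]
    have hle : ∀ ks ∈ bern D d a b, combR ks (qs.map fun c => evalP N mon ds c xs) ≤
        combR ks (ps.map fun c => evalP N mon ds c xs) := by
      intro ks hks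
      rw [← evalP_comb N mon ds xs ks fun c hc => (hqc c hc).1,
        ← evalP_comb N mon ds xs ks fun c hc => (hpc c hc).1]
      refine check_sound (X := X) hD hleaf hmon ds (Digits.comb ks hpc) (Digits.comb ks hqc) ?_
        (fun lh hl => hbox lh (List.mem_cons_of_mem _ hl)) hx.2 (cov := C)
        (w := ks.headD 0 * w)
      rw [packN_comb ks fun c hc => (hpc c hc).1, packN_comb ks fun c hc => (hqc c hc).1, hps, hqs,
        ← splitN_chunks hB' (n := d + 1) hp, ← splitN_chunks hB' (n := d + 1) hq]
      exact List.all_eq_true.1 (List.all_eq_true.1 hall ((a, b), C) hm) ks hks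
    have hD' : (0 : ℝ) < (D : ℝ) ^ d := pow_pos (Nat.cast_pos.2 hD) d
    show hornerR x _ ≤ hornerR x _
    refine le_of_mul_le_mul_left ?_ hD'
    rw [← hps, ← hqs, key qs hql, key ps hpl]
    exact hev_mono hu0 ht0 hle

/-- Soundness of `checkPoly`. -/
theorem checkPoly_sound {D X B N : ℕ} {leaf : ℕ → ℕ → ℕ → ℕ → List ℕ → Bool} {allowed : List Bool}
    {ds : List ℕ} {p q : List ℕ} {box : List (ℕ × ℕ)} {cov : Cover ds}
    (h : checkPoly D X B N leaf allowed ds p q box cov = true) (hD : 0 < D)
    (hbox : ∀ lh ∈ box, lh.1 < lh.2) {mon : List ℝ}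
    (hleaf : LeafSound N leaf mon) (hmon : monOK allowed mon)
    {xs : List ℝ} (hxs : InBox D box xs) :
    evalP N mon ds q xs ≤ evalP N mon ds p xs := by
  simp only [checkPoly, Bool.and_eq_true, List.all_eq_true, Nat.beq_eq] at h
  obtain ⟨⟨⟨⟨hp, hq⟩, hpB⟩, hqB⟩, hc⟩ := h
  exact check_sound hD hleaf hmon ds ⟨hp, fun a ha => Nat.le_of_ble_eq_true (hpB a ha)⟩
    ⟨hq, fun a ha => Nat.le_of_ble_eq_true (hqB a ha)⟩ hc hbox hxs

end

end Vale.Agent.P098.Check
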