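import Vale.Agent.P098.Check.Pivot
import Vale.Agent.P098.Check.Sound

/-!
P098, positivity checker: the leaf tests are sound for the monomials of a vector.
-/

namespace Vale.Agent.P098.Check

lemma leaf1_sound (x0 : ℝ) : LeafSound 1 leaf1 (symMon [x0]) := by
  intro X P Q w mult h
  unfold leaf1 at h
  split at h
  · have := pivot1_sound
      _ _
      h x0
    simp only [splitN, addMult, symMon, dotR, List.map_cons, List.map_nil, List.cons_append,
      List.nil_append] at this ⊢
    linarith
  · have := pivot1_sound
      _ _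
      h x0
    simp only [splitN, addMult, symMon, dotR, List.map_cons, List.map_nil, List.cons_append,
      List.nil_append] at this ⊢
    push_cast at this ⊢
    linarith
  · simp at h

lemma leaf2_sound (x0 x1 : ℝ) : LeafSound 3 leaf2 (symMon [x0, x1]) := by
  intro X P Q w mult h
  unfold leaf2 at h
  split at h
  · have := pivot2_sound
      _ _ _ _ _ _
      h x0 x1
    simp only [splitN, addMult, symMon, dotR, List.map_cons, List.map_nil, List.cons_append,
      List.nil_append] at this ⊢
    linarith
  · have := pivot2_sound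
      _ _ _ _ _ _
      h x0 x1
    simp only [splitN, addMult, symMon, dotR, List.map_cons, List.map_nil, List.cons_append,
      List.nil_append] at this ⊢
    push_cast at this ⊢
    linarith
  · simp at h

lemma leaf3_sound (x0 x1 x2 : ℝ) : LeafSound 6 leaf3 (symMon [x0, x1, x2]) := by
  intro X P Q w mult h
  unfold leaf3 at h
  split at h
  · have := pivot3_sound
      _ _ _ _ _ _ _ _ _ _ _ _
      h x0 x1 x2
    simp only [splitN, addMult, symMon, dotR, List.map_cons, List.map_nil, List.cons_append,
      List.nil_append] at this ⊢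
    linarith
  · have := pivot3_sound
      _ _ _ _ _ _ _ _ _ _ _ _
      h x0 x1 x2
    simp only [splitN, addMult, symMon, dotR, List.map_cons, List.map_nil, List.cons_append,
      List.nil_append] at this ⊢
    push_cast at this ⊢
    linarith
  · simp at h

lemma leaf4_sound (x0 x1 x2 x3 : ℝ) : LeafSound 10 leaf4 (symMon [x0, x1, x2, x3]) := by
  intro X P Q w mult h
  unfold leaf4 at h
  split at h
  · have := pivot4_sound
      _ _ _ _ _ _ _ _ _ _ _ _ _ _ _ _ _ _ _ _
      h x0 x1 x2 x3
    simp only [splitN, addMult, symMon, dotR, List.map_cons, List.map_nil, List.cons_append,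
      List.nil_append] at this ⊢
    linarith
  · have := pivot4_sound
      _ _ _ _ _ _ _ _ _ _ _ _ _ _ _ _ _ _ _ _
      h x0 x1 x2 x3
    simp only [splitN, addMult, symMon, dotR, List.map_cons, List.map_nil, List.cons_append,
      List.nil_append] at this ⊢
    push_cast at this ⊢
    linarith
  · simp at h

lemma leaf5_sound (x0 x1 x2 x3 x4 : ℝ) : LeafSound 15 leaf5 (symMon [x0, x1, x2, x3, x4]) := by
  intro X P Q w mult h
  unfold leaf5 at h
  split at h
  · have := pivot5_sound
      _ _ _ _ _ _ _ _ _ _ _ _ _ _ _ _ _ _ _ _ _ _ _ _ _ _ _ _ _ _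
      h x0 x1 x2 x3 x4
    simp only [splitN, addMult, symMon, dotR, List.map_cons, List.map_nil, List.cons_append,
      List.nil_append] at this ⊢
    linarith
  · have := pivot5_sound
      _ _ _ _ _ _ _ _ _ _ _ _ _ _ _ _ _ _ _ _ _ _ _ _ _ _ _ _ _ _
      h x0 x1 x2 x3 x4
    simp only [splitN, addMult, symMon, dotR, List.map_cons, List.map_nil, List.cons_append,
      List.nil_append] at this ⊢
    push_cast at this ⊢
    linarith
  · simp at h

lemma leaf6_sound (x0 x1 x2 x3 x4 x5 : ℝ) : LeafSound 21 leaf6 (symMon [x0, x1, x2, x3, x4, x5]) := by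
  intro X P Q w mult h
  unfold leaf6 at h
  split at h
  · have := pivot6_sound
      _ _ _ _ _ _ _ _ _ _ _ _ _ _ _ _ _ _ _ _ _ _ _ _ _ _ _ _ _ _ _ _ _ _ _ _ _ _ _ _ _ _
      h x0 x1 x2 x3 x4 x5
    simp only [splitN, addMult, symMon, dotR, List.map_cons, List.map_nil, List.cons_append,
      List.nil_append] at this ⊢
    linarith
  · have := pivot6_sound
      _ _ _ _ _ _ _ _ _ _ _ _ _ _ _ _ _ _ _ _ _ _ _ _ _ _ _ _ _ _ _ _ _ _ _ _ _ _ _ _ _ _
      h x0 x1 x2 x3 x4 x5
    simp only [splitN, addMult, symMon, dotR, List.map_cons, List.map_nil, List.cons_append,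
      List.nil_append] at this ⊢
    push_cast at this ⊢
    linarith
  · simp at h

end Vale.Agent.P098.Check
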