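import Vale.Agent.P098.Check.Tree
import Vale.Agent.P098.Check.Leaf

/-!
P098, positivity checker: one polynomial with integer coefficients, nonnegative on the part of a
box where a second one is nonpositive, by a bisection tree with a multiplier at every leaf.
-/

namespace Vale.Agent.P098.Check

/-- A bisection tree with a multiplier at every leaf. -/
inductive MultTree : Type
  | leaf : ℕ → MultTree
  | node : ℕ → ℕ → MultTree → MultTree → MultTree

/-- The positive parts. -/
def posList (l : List ℤ) : List ℕ := l.map Int.toNat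

/-- The negative parts. -/
def negList (l : List ℤ) : List ℕ := l.map fun z => Int.toNat (-z)

/-- The test of `F + k G` on every leaf. -/
def checkMult (D X : ℕ) (ds : List ℕ) (PF QF PG QG B : ℕ) : MultTree → List (ℕ × ℕ) → Bool
  | .leaf k, box => box.all (fun lh => Nat.blt lh.1 lh.2) &&
      check D X 1 leaf1 [] ds (k * PG + PF) (k * QG + QF) ((k + 1) * B) 1 box (oneCell ds box)
  | .node a m l r, box => checkMult D X ds PF QF PG QG B l (lowerBox a m box) &&
      checkMult D X ds PF QF PG QG B r (upperBox a m box)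

/-- The checker on lists of integers. -/
def checkScalar (D X B : ℕ) (ds : List ℕ) (f g : List ℤ) (t : MultTree) (box : List (ℕ × ℕ)) :
    Bool :=
  Nat.beq f.length (size 1 ds) && Nat.beq g.length (size 1 ds) &&
    f.all (fun a => Nat.ble a.natAbs B) && g.all (fun a => Nat.ble a.natAbs B) &&
    checkMult D X ds (packN X (posList f)) (packN X (negList f)) (packN X (posList g))
      (packN X (negList g)) B t box

noncomputable section

/-- Blocks of a list of integers. -/
def chunksInt (L : ℕ) : ℕ → List ℤ → List (List ℤ)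
  | 0, _ => []
  | n + 1, e => e.take L :: chunksInt L n (e.drop L)

/-- The value of a flat list of integers, the first variable outermost. -/
def evalZ : List ℕ → List ℤ → List ℝ → ℝ
  | [], e, _ => (e.headD 0 : ℝ)
  | d :: ds, e, x :: xs => hornerR x ((chunksInt (size 1 ds) (d + 1) e).map fun c => evalZ ds c xs)
  | _ :: _, _, [] => 0

lemma cast_toNat_sub (a : ℤ) : ((Int.toNat a : ℕ) : ℝ) - ((Int.toNat (-a) : ℕ) : ℝ) = (a : ℝ) := by
  have := congrArg (fun z : ℤ => (z : ℝ)) (Int.toNat_sub_toNat_neg a)
  push_cast at this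
  exact this

lemma evalZ_eq : ∀ (ds : List ℕ) (e : List ℤ) (xs : List ℝ), e.length = size 1 ds →
    evalZ ds e xs = evalP 1 [1] ds (posList e) xs - evalP 1 [1] ds (negList e) xs
  | [], e, xs, h => by
    obtain ⟨a, rfl⟩ := List.length_eq_one_iff.1 (show e.length = 1 from h)
    simp [evalZ, evalP, posList, negList, dotR, cast_toNat_sub]
  | _ :: _, _, [], _ => by simp [evalZ, evalP]
  | d :: ds, e, x :: xs, h => by
    have key : ∀ (n : ℕ) (e : List ℤ), e.length = n * size 1 ds →
        hornerR x ((chunksInt (size 1 ds) n e).map fun c => evalZ ds c xs) =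
          hornerR x ((chunks (size 1 ds) n (posList e)).map fun c => evalP 1 [1] ds c xs) -
            hornerR x ((chunks (size 1 ds) n (negList e)).map fun c => evalP 1 [1] ds c xs) := by
      intro n
      induction n with
      | zero => intros; simp [chunks, chunksInt, hornerR]
      | succ n ih =>
        intro e he
        have hs : (n + 1) * size 1 ds = size 1 ds + n * size 1 ds := by ring
        simp only [chunks, chunksInt, List.map_cons, hornerR]
        rw [ih _ (by simp [he, hs]), evalZ_eq ds _ xs (by simp [he, hs])]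
        simp only [posList, negList, ← List.map_take, ← List.map_drop]
        ring
    simp only [evalZ, evalP]
    exact key (d + 1) e h

lemma digits_parts {L B : ℕ} {e : List ℤ} (h : e.length = L) (hB : ∀ a ∈ e, a.natAbs ≤ B) :
    Digits L B (posList e) ∧ Digits L B (negList e) := by
  refine ⟨⟨by simp [posList, h], fun a ha => ?_⟩, ⟨by simp [negList, h], fun a ha => ?_⟩⟩ <;>
  · simp only [posList, negList, List.mem_map] at ha
    obtain ⟨z, hz, rfl⟩ := ha
    have := hB z hz
    omega

lemma digits_mult {L B k : ℕ} {a b : List ℕ} (ha : Digits L B a) (hb : Digits L B b) :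
    Digits L ((k + 1) * B) (List.zipWith (fun x y => k * x + y) a b) := by
  refine ⟨by simp [ha.1, hb.1], fun c hc => ?_⟩
  rw [List.zipWith_eq_zipWith_take_min, List.mem_iff_getElem] at hc
  obtain ⟨i, hi, rfl⟩ := hc
  simp only [List.getElem_zipWith, List.getElem_take]
  have h1 := ha.2 _ (List.getElem_mem (l := a) (n := i) (by simp at hi; omega))
  have h2 := hb.2 _ (List.getElem_mem (l := b) (n := i) (by simp at hi; omega))
  rw [add_mul, one_mul]
  exact add_le_add (Nat.mul_le_mul le_rfl h1) h2

lemma checkMult_sound {D X B : ℕ} (hD : 0 < D) {ds : List ℕ} {f g : List ℤ}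
    (hf : f.length = size 1 ds) (hg : g.length = size 1 ds) (hfB : ∀ a ∈ f, a.natAbs ≤ B)
    (hgB : ∀ a ∈ g, a.natAbs ≤ B) : ∀ (t : MultTree) {box : List (ℕ × ℕ)} {xs : List ℝ},
    checkMult D X ds (packN X (posList f)) (packN X (negList f)) (packN X (posList g))
      (packN X (negList g)) B t box = true → InBox D box xs →
    ∃ k : ℕ, 0 ≤ evalZ ds f xs + k * evalZ ds g xs
  | .leaf k, box, xs, h, hx => by
    obtain ⟨pf, nf⟩ := digits_parts hf hfB
    obtain ⟨pg, ng⟩ := digits_parts hg hgB
    simp only [checkMult, Bool.and_eq_true, List.all_eq_true] at h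
    rw [← packN_zipWith X k (pg.1.trans pf.1.symm), ← packN_zipWith X k (ng.1.trans nf.1.symm)] at h
    have key := check_sound hD (mon := [1]) (by simpa [symMon] using leaf1_sound 1) (by simp [monOK])
      ds (digits_mult pg pf) (digits_mult ng nf) h.2
      (fun lh hl => Nat.le_of_ble_eq_true (h.1 lh hl)) hx
    rw [evalP_zipWith 1 k [1] ds _ _ xs ng.1 nf.1, evalP_zipWith 1 k [1] ds _ _ xs pg.1 pf.1] at key
    refine ⟨k, ?_⟩
    rw [evalZ_eq ds f xs hf, evalZ_eq ds g xs hg]
    linarith
  | .node a m l r, box, xs, h, hx => by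
    simp only [checkMult, Bool.and_eq_true] at h
    rcases inBox_split a m hx with hx | hx
    · exact checkMult_sound hD hf hg hfB hgB l h.1 hx
    · exact checkMult_sound hD hf hg hfB hgB r h.2 hx

/-- `F` is nonnegative where `G` is nonpositive. -/
theorem checkScalar_sound {D X B : ℕ} {ds : List ℕ} {f g : List ℤ} {t : MultTree}
    {box : List (ℕ × ℕ)} (h : checkScalar D X B ds f g t box = true) (hD : 0 < D) {xs : List ℝ}
    (hxs : InBox D box xs) (hg : evalZ ds g xs ≤ 0) : 0 ≤ evalZ ds f xs := by
  simp only [checkScalar, Bool.and_eq_true, List.all_eq_true, Nat.beq_eq] at h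
  obtain ⟨⟨⟨⟨hf, hg'⟩, hfB⟩, hgB⟩, hc⟩ := h
  obtain ⟨k, hk⟩ := checkMult_sound hD hf hg' (fun a ha => Nat.le_of_ble_eq_true (hfB a ha))
    (fun a ha => Nat.le_of_ble_eq_true (hgB a ha)) t hc hxs
  nlinarith [mul_nonpos_of_nonneg_of_nonpos (Nat.cast_nonneg (α := ℝ) k) hg]

end

end Vale.Agent.P098.Check
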