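import Mathlib

/-!
P098, positivity checker: kernel-evaluable definitions.

A symmetric matrix polynomial is given by two flat lists of natural numbers, its positive and
negative parts: the exponent of the first variable is outermost, the index of the matrix entry
innermost. On each cell of a cover the variable is rewritten in the Bernstein basis of the cell.
All inner coefficients of one exponent are packed in one number in base `X`; a bound on the digits
is carried along, so that unpacking is exact.
-/

namespace Vale.Agent.P098.Check

/-- The sum of the products of two lists. -/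
def dotN : List ℕ → List ℕ → ℕ
  | [], _ => 0
  | _ :: _, [] => 0
  | k :: ks, q :: qs => k * q + dotN ks qs

/-- The sum of a list. -/
def sumN : List ℕ → ℕ
  | [] => 0
  | k :: ks => k + sumN ks

/-- Packing of digits in base `X`, least significant first. -/
def packN (X : ℕ) : List ℕ → ℕ
  | [] => 0
  | a :: l => a + X * packN X l

/-- The first `k` digits in base `X`. -/
def splitN (X : ℕ) : ℕ → ℕ → List ℕ
  | 0, _ => []
  | k + 1, Z => Z % X :: splitN X k (Z / X)

/-- Multiplication of a homogeneous list by `a u + b t`, the previous entry given. -/
def mulGo (a b : ℕ) : ℕ → List ℕ → List ℕ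
  | prev, [] => [b * prev]
  | prev, c :: cs => (b * prev + a * c) :: mulGo a b c cs

/-- Multiplication of a homogeneous list by `a u + b t`. -/
def mulLin (a b : ℕ) : List ℕ → List ℕ
  | [] => []
  | c :: cs => a * c :: mulGo a b c cs

/-- The homogeneous list of `(u + t) ^ n`. -/
def binRow : ℕ → List ℕ
  | 0 => [1]
  | n + 1 => mulLin 1 1 (binRow n)

/-- Row `i`: the homogeneous list of `(D (u + t)) ^ (n - i) * (a u + b t) ^ i`. -/
def table (D a b : ℕ) : ℕ → List (List ℕ)
  | 0 => [[1]]
  | n + 1 => (binRow (n + 1)).map (D ^ (n + 1) * ·) :: (table D a b n).map (mulLin a b)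

/-- The first `k` columns of a table. -/
def cols : ℕ → List (List ℕ) → List (List ℕ)
  | 0, _ => []
  | k + 1, t => t.map (·.headD 0) :: cols k (t.map List.tail)

/-- The Bernstein matrix of the cell `[a / D, b / D]` in degree `d`. -/
def bern (D d a b : ℕ) : List (List ℕ) := cols (d + 1) (table D a b d)

/-- The number of digits of a polynomial with degrees `ds` and `N` entries. -/
def size (N : ℕ) : List ℕ → ℕ
  | [] => N
  | d :: ds => (d + 1) * size N ds

/-- A cover of a box, with a multiplier on each cell. -/
def Cover : List ℕ → Type
  | [] => List ℕ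
  | _ :: ds => List ((ℕ × ℕ) × Cover ds)

/-- The intervals form a chain from `lo` to `hi`. -/
def chain {C : Type} : ℕ → ℕ → List ((ℕ × ℕ) × C) → Bool
  | lo, hi, [] => Nat.ble hi lo
  | lo, hi, ((a, b), _) :: rest => Nat.ble a lo && Nat.blt a b && chain b hi rest

/-- A multiplier supported on the allowed entries. -/
def okMult : List Bool → List ℕ → Bool
  | _, [] => true
  | [], e :: es => Nat.beq e 0 && okMult [] es
  | c :: cs, e :: es => (c || Nat.beq e 0) && okMult cs es

/-- `q + w * mult`, entrywise. -/
def addMult (w : ℕ) : List ℕ → List ℕ → List ℕ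
  | [], _ => []
  | q :: qs, [] => q :: qs
  | q :: qs, e :: es => (q + w * e) :: addMult w qs es

/-- The checker. `B` bounds the digits, `w` is the scale of the multiplier, `box` the bounds
times `D`, `leaf` the test of one constant matrix, given by its packed parts, the scale and the multiplier. -/
def check (D X N : ℕ) (leaf : ℕ → ℕ → ℕ → ℕ → List ℕ → Bool) (allowed : List Bool) :
    (ds : List ℕ) → ℕ → ℕ → ℕ → ℕ → List (ℕ × ℕ) → Cover ds → Bool
  | [], P, Q, B, w, _, mult => Nat.blt B X && okMult allowed mult &&
      leaf X P Q w mult
  | d :: ds, P, Q, B, w, box, cov =>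
    match box with
    | [] => false
    | (lo, hi) :: box' =>
      let Y := X ^ size N ds
      let ps := splitN Y (d + 1) P
      let qs := splitN Y (d + 1) Q
      Nat.blt B X && chain lo hi cov && cov.all fun cell =>
        (bern D d cell.1.1 cell.1.2).all fun ks =>
          check D X N leaf allowed ds (dotN ks ps) (dotN ks qs) (sumN ks * B) (ks.headD 0 * w)
            box' cell.2

/-- The checker on flat lists of digits. -/
def checkPoly (D X B N : ℕ) (leaf : ℕ → ℕ → ℕ → ℕ → List ℕ → Bool) (allowed : List Bool) (ds : List ℕ)
    (p q : List ℕ) (box : List (ℕ × ℕ)) (cov : Cover ds) : Bool :=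
  Nat.beq p.length (size N ds) && Nat.beq q.length (size N ds) &&
    p.all (fun a => Nat.ble a B) && q.all (fun a => Nat.ble a B) &&
    check D X N leaf allowed ds (packN X p) (packN X q) B 1 box cov

end Vale.Agent.P098.Check
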