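import Vale.Agent.P098.Check.Core

/-!
P098, positivity checker: packing of digits and linear combinations.
-/

namespace Vale.Agent.P098.Check

/-- The blocks of length `L`. -/
def chunks (L : ℕ) : ℕ → List ℕ → List (List ℕ)
  | 0, _ => []
  | n + 1, e => e.take L :: chunks L n (e.drop L)

/-- Entrywise combination of lists of length `L`. -/
def comb (L : ℕ) : List ℕ → List (List ℕ) → List ℕ
  | [], _ => List.replicate L 0
  | _ :: _, [] => List.replicate L 0
  | k :: ks, c :: cs => List.zipWith (fun a b => k * a + b) c (comb L ks cs)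

/-- A digit list of length `L` with bound `B`. -/
def Digits (L B : ℕ) (e : List ℕ) : Prop := e.length = L ∧ ∀ a ∈ e, a ≤ B

lemma packN_append (X : ℕ) : ∀ a b : List ℕ,
    packN X (a ++ b) = packN X a + X ^ a.length * packN X b
  | [], b => by simp [packN]
  | x :: a, b => by
    simp only [List.cons_append, packN, List.length_cons, packN_append X a b, pow_succ]
    ring

lemma packN_lt {X : ℕ} : ∀ {e : List ℕ}, (∀ a ∈ e, a < X) → packN X e < X ^ e.length
  | [], _ => by simp [packN]
  | a :: e, h => by
    have h1 := packN_lt fun b hb => h b (List.mem_cons_of_mem a hb)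
    have h2 := h a List.mem_cons_self
    rw [packN, List.length_cons, pow_succ]
    calc a + X * packN X e < X + X * packN X e := by omega
      _ = (packN X e + 1) * X := by ring
      _ ≤ X ^ e.length * X := Nat.mul_le_mul_right X (by omega)

lemma splitN_packN {X : ℕ} : ∀ {e : List ℕ}, (∀ a ∈ e, a < X) →
    splitN X e.length (packN X e) = e
  | [], _ => rfl
  | a :: e, h => by
    have ha := h a List.mem_cons_self
    rw [List.length_cons, packN, splitN, Nat.add_mul_mod_self_left, Nat.mod_eq_of_lt ha,
      Nat.add_mul_div_left _ _ (by omega), Nat.div_eq_of_lt ha, Nat.zero_add,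
      splitN_packN fun b hb => h b (List.mem_cons_of_mem a hb)]

lemma Digits.chunk {L B : ℕ} : ∀ {n : ℕ} {e : List ℕ}, Digits (n * L) B e →
    (chunks L n e).length = n ∧ ∀ c ∈ chunks L n e, Digits L B c
  | 0, e, _ => by simp [chunks]
  | n + 1, e, h => by
    have h' : Digits (n * L) B (e.drop L) :=
      ⟨by rw [List.length_drop, h.1]; ring_nf; omega, fun a ha => h.2 a (List.mem_of_mem_drop ha)⟩
    obtain ⟨h1, h2⟩ := h'.chunk
    refine ⟨by simp [chunks, h1], fun c hc => ?_⟩
    rcases List.mem_cons.1 hc with rfl | hc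
    · refine ⟨by rw [List.length_take, h.1, Nat.min_eq_left]; nlinarith,
        fun a ha => h.2 a (List.mem_of_mem_take ha)⟩
    · exact h2 c hc

lemma splitN_chunks {X L B : ℕ} (hB : B < X) : ∀ {n : ℕ} {e : List ℕ}, Digits (n * L) B e →
    splitN (X ^ L) n (packN X e) = (chunks L n e).map (packN X)
  | 0, e, _ => rfl
  | n + 1, e, h => by
    have hle : L ≤ e.length := by rw [h.1]; nlinarith
    have hlen : (e.take L).length = L := by rw [List.length_take, Nat.min_eq_left hle]
    have hd : Digits (n * L) B (e.drop L) :=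
      ⟨by rw [List.length_drop, h.1]; ring_nf; omega, fun a ha => h.2 a (List.mem_of_mem_drop ha)⟩
    have hlt : packN X (e.take L) < X ^ L := by
      conv_rhs => rw [← hlen]
      exact packN_lt fun a ha => (h.2 a (List.mem_of_mem_take ha)).trans_lt hB
    have he : packN X e = packN X (e.take L) + X ^ L * packN X (e.drop L) := by
      conv_lhs => rw [← List.take_append_drop L e, packN_append, hlen]
    rw [splitN, chunks, List.map_cons, he, Nat.add_mul_mod_self_left, Nat.mod_eq_of_lt hlt,
      Nat.add_mul_div_left _ _ (by positivity [show 0 < X by omega]), Nat.div_eq_of_lt hlt,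
      Nat.zero_add, splitN_chunks hB hd]

lemma packN_zipWith (X k : ℕ) : ∀ {a b : List ℕ}, a.length = b.length →
    packN X (List.zipWith (fun x y => k * x + y) a b) = k * packN X a + packN X b
  | [], [], _ => by simp [packN]
  | x :: a, y :: b, h => by
    simp only [List.zipWith_cons_cons, packN, packN_zipWith X k (Nat.succ.inj h)]
    ring

lemma comb_length {L : ℕ} : ∀ (ks : List ℕ) {cs : List (List ℕ)}, (∀ c ∈ cs, c.length = L) →
    (comb L ks cs).length = L
  | [], cs, _ => by cases cs <;> simp [comb]
  | k :: ks, [], _ => by simp [comb]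
  | k :: ks, c :: cs, h => by
    rw [comb, List.length_zipWith, h c List.mem_cons_self,
      comb_length ks fun x hx => h x (List.mem_cons_of_mem c hx), Nat.min_self]

lemma packN_replicate (X : ℕ) : ∀ L, packN X (List.replicate L 0) = 0
  | 0 => rfl
  | L + 1 => by rw [List.replicate_succ, packN, packN_replicate X L]; simp

lemma packN_comb {X L : ℕ} : ∀ (ks : List ℕ) {cs : List (List ℕ)}, (∀ c ∈ cs, c.length = L) →
    packN X (comb L ks cs) = dotN ks (cs.map (packN X))
  | [], cs, _ => by cases cs <;> simp [comb, dotN, packN_replicate]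
  | k :: ks, [], _ => by simp [comb, dotN, packN_replicate]
  | k :: ks, c :: cs, h => by
    have h' : ∀ x ∈ cs, x.length = L := fun x hx => h x (List.mem_cons_of_mem c hx)
    rw [comb, packN_zipWith X k ((h c List.mem_cons_self).trans (comb_length ks h').symm),
      packN_comb ks h', List.map_cons, dotN]

lemma mem_zipWith_le {k B C : ℕ} : ∀ {a b : List ℕ}, (∀ x ∈ a, x ≤ B) → (∀ y ∈ b, y ≤ C) →
    ∀ z ∈ List.zipWith (fun x y => k * x + y) a b, z ≤ k * B + C
  | [], _, _, _, z, hz => by simp at hz
  | _ :: _, [], _, _, z, hz => by simp at hz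
  | x :: a, y :: b, ha, hb, z, hz => by
    rcases List.mem_cons.1 hz with rfl | hz
    · exact add_le_add (Nat.mul_le_mul_left k (ha x List.mem_cons_self)) (hb y List.mem_cons_self)
    · exact mem_zipWith_le (fun u hu => ha u (List.mem_cons_of_mem x hu))
        (fun u hu => hb u (List.mem_cons_of_mem y hu)) z hz

lemma Digits.comb {L B : ℕ} : ∀ (ks : List ℕ) {cs : List (List ℕ)}, (∀ c ∈ cs, Digits L B c) →
    Digits L (sumN ks * B) (comb L ks cs)
  | [], cs, _ => by
    cases cs <;> exact ⟨by simp [Check.comb], fun a ha => by simp [Check.comb] at ha; omega⟩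
  | k :: ks, [], _ => ⟨by simp [Check.comb], fun a ha => by simp [Check.comb] at ha; omega⟩
  | k :: ks, c :: cs, h => by
    have h' : ∀ x ∈ cs, Digits L B x := fun x hx => h x (List.mem_cons_of_mem c hx)
    refine ⟨comb_length (k :: ks) fun x hx => (h x hx).1, fun z hz => ?_⟩
    rw [sumN, add_mul]
    exact mem_zipWith_le (h c List.mem_cons_self).2 (Digits.comb ks h').2 z hz

end Vale.Agent.P098.Check
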