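import Vale.Agent.P098.Check.Core

/-!
P098, positivity checker: unrolled division-free elimination for dimensions up to six, on
positive and negative parts (`p - n` is the entry), and its soundness.
-/

namespace Vale.Agent.P098.Check

/-- Positive definiteness of a symmetric matrix of dimension 1. -/
def pivot1 (p00 n00 : ℕ) : Bool := Nat.blt n00 p00

/-- Positive definiteness of a symmetric matrix of dimension 2. -/
def pivot2 (p00 n00 p01 n01 p11 n11 : ℕ) : Bool :=
  Nat.blt n00 p00 && pivot1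
    ((p00 - n00) * p11 + (p01 * n01 + n01 * p01))
    ((p00 - n00) * n11 + (p01 * p01 + n01 * n01))

/-- Positive definiteness of a symmetric matrix of dimension 3. -/
def pivot3 (p00 n00 p01 n01 p02 n02 p11 n11 p12 n12 p22 n22 : ℕ) : Bool :=
  Nat.blt n00 p00 && pivot2
    ((p00 - n00) * p11 + (p01 * n01 + n01 * p01))
    ((p00 - n00) * n11 + (p01 * p01 + n01 * n01))
    ((p00 - n00) * p12 + (p01 * n02 + n01 * p02))
    ((p00 - n00) * n12 + (p01 * p02 + n01 * n02))
    ((p00 - n00) * p22 + (p02 * n02 + n02 * p02))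
    ((p00 - n00) * n22 + (p02 * p02 + n02 * n02))

/-- Positive definiteness of a symmetric matrix of dimension 4. -/
def pivot4 (p00 n00 p01 n01 p02 n02 p03 n03 p11 n11 p12 n12 p13 n13 p22 n22 p23 n23 p33 n33 : ℕ) : Bool :=
  Nat.blt n00 p00 && pivot3
    ((p00 - n00) * p11 + (p01 * n01 + n01 * p01))
    ((p00 - n00) * n11 + (p01 * p01 + n01 * n01))
    ((p00 - n00) * p12 + (p01 * n02 + n01 * p02))
    ((p00 - n00) * n12 + (p01 * p02 + n01 * n02))
    ((p00 - n00) * p13 + (p01 * n03 + n01 * p03))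
    ((p00 - n00) * n13 + (p01 * p03 + n01 * n03))
    ((p00 - n00) * p22 + (p02 * n02 + n02 * p02))
    ((p00 - n00) * n22 + (p02 * p02 + n02 * n02))
    ((p00 - n00) * p23 + (p02 * n03 + n02 * p03))
    ((p00 - n00) * n23 + (p02 * p03 + n02 * n03))
    ((p00 - n00) * p33 + (p03 * n03 + n03 * p03))
    ((p00 - n00) * n33 + (p03 * p03 + n03 * n03))

/-- Positive definiteness of a symmetric matrix of dimension 5. -/
def pivot5 (p00 n00 p01 n01 p02 n02 p03 n03 p04 n04 p11 n11 p12 n12 p13 n13 p14 n14 p22 n22 p23 n23 p24 n24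
    p33 n33 p34 n34 p44 n44 : ℕ) : Bool :=
  Nat.blt n00 p00 && pivot4
    ((p00 - n00) * p11 + (p01 * n01 + n01 * p01))
    ((p00 - n00) * n11 + (p01 * p01 + n01 * n01))
    ((p00 - n00) * p12 + (p01 * n02 + n01 * p02))
    ((p00 - n00) * n12 + (p01 * p02 + n01 * n02))
    ((p00 - n00) * p13 + (p01 * n03 + n01 * p03))
    ((p00 - n00) * n13 + (p01 * p03 + n01 * n03))
    ((p00 - n00) * p14 + (p01 * n04 + n01 * p04))
    ((p00 - n00) * n14 + (p01 * p04 + n01 * n04))
    ((p00 - n00) * p22 + (p02 * n02 + n02 * p02))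
    ((p00 - n00) * n22 + (p02 * p02 + n02 * n02))
    ((p00 - n00) * p23 + (p02 * n03 + n02 * p03))
    ((p00 - n00) * n23 + (p02 * p03 + n02 * n03))
    ((p00 - n00) * p24 + (p02 * n04 + n02 * p04))
    ((p00 - n00) * n24 + (p02 * p04 + n02 * n04))
    ((p00 - n00) * p33 + (p03 * n03 + n03 * p03))
    ((p00 - n00) * n33 + (p03 * p03 + n03 * n03))
    ((p00 - n00) * p34 + (p03 * n04 + n03 * p04))
    ((p00 - n00) * n34 + (p03 * p04 + n03 * n04))
    ((p00 - n00) * p44 + (p04 * n04 + n04 * p04))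
    ((p00 - n00) * n44 + (p04 * p04 + n04 * n04))

/-- Positive definiteness of a symmetric matrix of dimension 6. -/
def pivot6 (p00 n00 p01 n01 p02 n02 p03 n03 p04 n04 p05 n05 p11 n11 p12 n12 p13 n13 p14 n14 p15 n15 p22 n22
    p23 n23 p24 n24 p25 n25 p33 n33 p34 n34 p35 n35 p44 n44 p45 n45 p55 n55 : ℕ) : Bool :=
  Nat.blt n00 p00 && pivot5
    ((p00 - n00) * p11 + (p01 * n01 + n01 * p01))
    ((p00 - n00) * n11 + (p01 * p01 + n01 * n01))
    ((p00 - n00) * p12 + (p01 * n02 + n01 * p02))
    ((p00 - n00) * n12 + (p01 * p02 + n01 * n02))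
    ((p00 - n00) * p13 + (p01 * n03 + n01 * p03))
    ((p00 - n00) * n13 + (p01 * p03 + n01 * n03))
    ((p00 - n00) * p14 + (p01 * n04 + n01 * p04))
    ((p00 - n00) * n14 + (p01 * p04 + n01 * n04))
    ((p00 - n00) * p15 + (p01 * n05 + n01 * p05))
    ((p00 - n00) * n15 + (p01 * p05 + n01 * n05))
    ((p00 - n00) * p22 + (p02 * n02 + n02 * p02))
    ((p00 - n00) * n22 + (p02 * p02 + n02 * n02))
    ((p00 - n00) * p23 + (p02 * n03 + n02 * p03))
    ((p00 - n00) * n23 + (p02 * p03 + n02 * n03))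
    ((p00 - n00) * p24 + (p02 * n04 + n02 * p04))
    ((p00 - n00) * n24 + (p02 * p04 + n02 * n04))
    ((p00 - n00) * p25 + (p02 * n05 + n02 * p05))
    ((p00 - n00) * n25 + (p02 * p05 + n02 * n05))
    ((p00 - n00) * p33 + (p03 * n03 + n03 * p03))
    ((p00 - n00) * n33 + (p03 * p03 + n03 * n03))
    ((p00 - n00) * p34 + (p03 * n04 + n03 * p04))
    ((p00 - n00) * n34 + (p03 * p04 + n03 * n04))
    ((p00 - n00) * p35 + (p03 * n05 + n03 * p05))
    ((p00 - n00) * n35 + (p03 * p05 + n03 * n05))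
    ((p00 - n00) * p44 + (p04 * n04 + n04 * p04))
    ((p00 - n00) * n44 + (p04 * p04 + n04 * n04))
    ((p00 - n00) * p45 + (p04 * n05 + n04 * p05))
    ((p00 - n00) * n45 + (p04 * p05 + n04 * n05))
    ((p00 - n00) * p55 + (p05 * n05 + n05 * p05))
    ((p00 - n00) * n55 + (p05 * p05 + n05 * n05))

lemma pivot1_sound (p00 n00 : ℕ)
    (h : pivot1 p00 n00 = true)
    (x0 : ℝ) :
    0 ≤ ((p00 : ℝ) - n00) * (x0 * x0) := by
  have h0 : (n00 : ℝ) < p00 := by
    have := Nat.le_of_ble_eq_true h
    exact_mod_cast this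
  exact mul_nonneg (by linarith) (mul_self_nonneg x0)

lemma pivot2_sound (p00 n00 p01 n01 p11 n11 : ℕ)
    (h : pivot2 p00 n00 p01 n01 p11 n11 = true)
    (x0 x1 : ℝ) :
    0 ≤ ((p00 : ℝ) - n00) * (x0 * x0) +
      ((p01 : ℝ) - n01) * (2 * x0 * x1) +
      ((p11 : ℝ) - n11) * (x1 * x1) := by
  rw [pivot2, Bool.and_eq_true] at h
  have h1 : n00 < p00 := Nat.le_of_ble_eq_true h.1
  have h0 : (0 : ℝ) < p00 - n00 := sub_pos.2 (Nat.cast_lt.2 h1)
  have ih := pivot1_sound _ _ h.2 x1
  push_cast [Nat.cast_sub h1.le] at ih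
  refine nonneg_of_mul_nonneg_right ?_ h0
  linear_combination ih + mul_self_nonneg (((p00 : ℝ) - n00) * x0 + ((p01 : ℝ) - n01) * x1)

lemma pivot3_sound (p00 n00 p01 n01 p02 n02 p11 n11 p12 n12 p22 n22 : ℕ)
    (h : pivot3 p00 n00 p01 n01 p02 n02 p11 n11 p12 n12 p22 n22 = true)
    (x0 x1 x2 : ℝ) :
    0 ≤ ((p00 : ℝ) - n00) * (x0 * x0) +
      ((p01 : ℝ) - n01) * (2 * x0 * x1) +
      ((p02 : ℝ) - n02) * (2 * x0 * x2) +
      ((p11 : ℝ) - n11) * (x1 * x1) +
      ((p12 : ℝ) - n12) * (2 * x1 * x2) +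
      ((p22 : ℝ) - n22) * (x2 * x2) := by
  rw [pivot3, Bool.and_eq_true] at h
  have h1 : n00 < p00 := Nat.le_of_ble_eq_true h.1
  have h0 : (0 : ℝ) < p00 - n00 := sub_pos.2 (Nat.cast_lt.2 h1)
  have ih := pivot2_sound _ _ _ _ _ _ h.2 x1 x2
  push_cast [Nat.cast_sub h1.le] at ih
  refine nonneg_of_mul_nonneg_right ?_ h0
  linear_combination ih + mul_self_nonneg (((p00 : ℝ) - n00) * x0 + ((p01 : ℝ) - n01) * x1 + ((p02 : ℝ) - n02) * x2)

lemma pivot4_sound (p00 n00 p01 n01 p02 n02 p03 n03 p11 n11 p12 n12 p13 n13 p22 n22 p23 n23 p33 n33 : ℕ)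
    (h : pivot4 p00 n00 p01 n01 p02 n02 p03 n03 p11 n11 p12 n12 p13 n13 p22 n22 p23 n23 p33 n33 = true)
    (x0 x1 x2 x3 : ℝ) :
    0 ≤ ((p00 : ℝ) - n00) * (x0 * x0) +
      ((p01 : ℝ) - n01) * (2 * x0 * x1) +
      ((p02 : ℝ) - n02) * (2 * x0 * x2) +
      ((p03 : ℝ) - n03) * (2 * x0 * x3) +
      ((p11 : ℝ) - n11) * (x1 * x1) +
      ((p12 : ℝ) - n12) * (2 * x1 * x2) +
      ((p13 : ℝ) - n13) * (2 * x1 * x3) +
      ((p22 : ℝ) - n22) * (x2 * x2) +
      ((p23 : ℝ) - n23) * (2 * x2 * x3) +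
      ((p33 : ℝ) - n33) * (x3 * x3) := by
  rw [pivot4, Bool.and_eq_true] at h
  have h1 : n00 < p00 := Nat.le_of_ble_eq_true h.1
  have h0 : (0 : ℝ) < p00 - n00 := sub_pos.2 (Nat.cast_lt.2 h1)
  have ih := pivot3_sound _ _ _ _ _ _ _ _ _ _ _ _ h.2 x1 x2 x3
  push_cast [Nat.cast_sub h1.le] at ih
  refine nonneg_of_mul_nonneg_right ?_ h0
  linear_combination ih + mul_self_nonneg (((p00 : ℝ) - n00) * x0 + ((p01 : ℝ) - n01) * x1 + ((p02 : ℝ) - n02) * x2 + ((p03 : ℝ) - n03) *
    x3)

lemma pivot5_sound (p00 n00 p01 n01 p02 n02 p03 n03 p04 n04 p11 n11 p12 n12 p13 n13 p14 n14 p22 n22 p23 n23 p24 n24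
    p33 n33 p34 n34 p44 n44 : ℕ)
    (h : pivot5 p00 n00 p01 n01 p02 n02 p03 n03 p04 n04 p11 n11 p12 n12 p13 n13 p14 n14 p22 n22 p23 n23 p24 n24
    p33 n33 p34 n34 p44 n44 = true)
    (x0 x1 x2 x3 x4 : ℝ) :
    0 ≤ ((p00 : ℝ) - n00) * (x0 * x0) +
      ((p01 : ℝ) - n01) * (2 * x0 * x1) +
      ((p02 : ℝ) - n02) * (2 * x0 * x2) +
      ((p03 : ℝ) - n03) * (2 * x0 * x3) +
      ((p04 : ℝ) - n04) * (2 * x0 * x4) +
      ((p11 : ℝ) - n11) * (x1 * x1) +
      ((p12 : ℝ) - n12) * (2 * x1 * x2) +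
      ((p13 : ℝ) - n13) * (2 * x1 * x3) +
      ((p14 : ℝ) - n14) * (2 * x1 * x4) +
      ((p22 : ℝ) - n22) * (x2 * x2) +
      ((p23 : ℝ) - n23) * (2 * x2 * x3) +
      ((p24 : ℝ) - n24) * (2 * x2 * x4) +
      ((p33 : ℝ) - n33) * (x3 * x3) +
      ((p34 : ℝ) - n34) * (2 * x3 * x4) +
      ((p44 : ℝ) - n44) * (x4 * x4) := by
  rw [pivot5, Bool.and_eq_true] at h
  have h1 : n00 < p00 := Nat.le_of_ble_eq_true h.1
  have h0 : (0 : ℝ) < p00 - n00 := sub_pos.2 (Nat.cast_lt.2 h1)
  have ih := pivot4_sound _ _ _ _ _ _ _ _ _ _ _ _ _ _ _ _ _ _ _ _ h.2 x1 x2 x3 x4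
  push_cast [Nat.cast_sub h1.le] at ih
  refine nonneg_of_mul_nonneg_right ?_ h0
  linear_combination ih + mul_self_nonneg (((p00 : ℝ) - n00) * x0 + ((p01 : ℝ) - n01) * x1 + ((p02 : ℝ) - n02) * x2 + ((p03 : ℝ) - n03) *
    x3 + ((p04 : ℝ) - n04) * x4)

lemma pivot6_sound (p00 n00 p01 n01 p02 n02 p03 n03 p04 n04 p05 n05 p11 n11 p12 n12 p13 n13 p14 n14 p15 n15 p22 n22
    p23 n23 p24 n24 p25 n25 p33 n33 p34 n34 p35 n35 p44 n44 p45 n45 p55 n55 : ℕ)
    (h : pivot6 p00 n00 p01 n01 p02 n02 p03 n03 p04 n04 p05 n05 p11 n11 p12 n12 p13 n13 p14 n14 p15 n15 p22 n22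
    p23 n23 p24 n24 p25 n25 p33 n33 p34 n34 p35 n35 p44 n44 p45 n45 p55 n55 = true)
    (x0 x1 x2 x3 x4 x5 : ℝ) :
    0 ≤ ((p00 : ℝ) - n00) * (x0 * x0) +
      ((p01 : ℝ) - n01) * (2 * x0 * x1) +
      ((p02 : ℝ) - n02) * (2 * x0 * x2) +
      ((p03 : ℝ) - n03) * (2 * x0 * x3) +
      ((p04 : ℝ) - n04) * (2 * x0 * x4) +
      ((p05 : ℝ) - n05) * (2 * x0 * x5) +
      ((p11 : ℝ) - n11) * (x1 * x1) +
      ((p12 : ℝ) - n12) * (2 * x1 * x2) +
      ((p13 : ℝ) - n13) * (2 * x1 * x3) +
      ((p14 : ℝ) - n14) * (2 * x1 * x4) +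
      ((p15 : ℝ) - n15) * (2 * x1 * x5) +
      ((p22 : ℝ) - n22) * (x2 * x2) +
      ((p23 : ℝ) - n23) * (2 * x2 * x3) +
      ((p24 : ℝ) - n24) * (2 * x2 * x4) +
      ((p25 : ℝ) - n25) * (2 * x2 * x5) +
      ((p33 : ℝ) - n33) * (x3 * x3) +
      ((p34 : ℝ) - n34) * (2 * x3 * x4) +
      ((p35 : ℝ) - n35) * (2 * x3 * x5) +
      ((p44 : ℝ) - n44) * (x4 * x4) +
      ((p45 : ℝ) - n45) * (2 * x4 * x5) +
      ((p55 : ℝ) - n55) * (x5 * x5) := by
  rw [pivot6, Bool.and_eq_true] at h
  have h1 : n00 < p00 := Nat.le_of_ble_eq_true h.1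
  have h0 : (0 : ℝ) < p00 - n00 := sub_pos.2 (Nat.cast_lt.2 h1)
  have ih := pivot5_sound _ _ _ _ _ _ _ _ _ _ _ _ _ _ _ _ _ _ _ _ _ _ _ _ _ _ _ _ _ _ h.2 x1 x2 x3 x4 x5
  push_cast [Nat.cast_sub h1.le] at ih
  refine nonneg_of_mul_nonneg_right ?_ h0
  linear_combination ih + mul_self_nonneg (((p00 : ℝ) - n00) * x0 + ((p01 : ℝ) - n01) * x1 + ((p02 : ℝ) - n02) * x2 + ((p03 : ℝ) - n03) *
    x3 + ((p04 : ℝ) - n04) * x4 + ((p05 : ℝ) - n05) * x5)

/-- The packed leaf test in dimension 1. -/
def leaf1 (X P Q w : ℕ) : List ℕ → Bool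
  | [] =>
    pivot1
      (P % X) (Q % X)
  | [m0] =>
    pivot1
      (P % X) (Q % X + w * m0)
  | _ => false

/-- The packed leaf test in dimension 2. -/
def leaf2 (X P Q w : ℕ) : List ℕ → Bool
  | [] =>
    pivot2
      (P % X) (Q % X) (P / X % X) (Q / X % X) (P / X / X % X) (Q / X / X % X)
  | [m0, m1, m2] =>
    pivot2
      (P % X) (Q % X + w * m0) (P / X % X) (Q / X % X + w * m1) (P / X / X % X)
      (Q / X / X % X + w * m2)
  | _ => false

/-- The packed leaf test in dimension 3. -/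
def leaf3 (X P Q w : ℕ) : List ℕ → Bool
  | [] =>
    pivot3
      (P % X) (Q % X) (P / X % X) (Q / X % X) (P / X / X % X) (Q / X / X % X) (P / X / X / X % X)
      (Q / X / X / X % X) (P / X / X / X / X % X) (Q / X / X / X / X % X)
      (P / X / X / X / X / X % X) (Q / X / X / X / X / X % X)
  | [m0, m1, m2, m3, m4, m5] =>
    pivot3
      (P % X) (Q % X + w * m0) (P / X % X) (Q / X % X + w * m1) (P / X / X % X)
      (Q / X / X % X + w * m2) (P / X / X / X % X) (Q / X / X / X % X + w * m3)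
      (P / X / X / X / X % X) (Q / X / X / X / X % X + w * m4) (P / X / X / X / X / X % X)
      (Q / X / X / X / X / X % X + w * m5)
  | _ => false

/-- The packed leaf test in dimension 4. -/
def leaf4 (X P Q w : ℕ) : List ℕ → Bool
  | [] =>
    pivot4
      (P % X) (Q % X) (P / X % X) (Q / X % X) (P / X / X % X) (Q / X / X % X) (P / X / X / X % X)
      (Q / X / X / X % X) (P / X / X / X / X % X) (Q / X / X / X / X % X)
      (P / X / X / X / X / X % X) (Q / X / X / X / X / X % X) (P / X / X / X / X / X / X % X)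
      (Q / X / X / X / X / X / X % X) (P / X / X / X / X / X / X / X % X)
      (Q / X / X / X / X / X / X / X % X) (P / X / X / X / X / X / X / X / X % X)
      (Q / X / X / X / X / X / X / X / X % X) (P / X / X / X / X / X / X / X / X / X % X)
      (Q / X / X / X / X / X / X / X / X / X % X)
  | [m0, m1, m2, m3, m4, m5, m6, m7, m8, m9] =>
    pivot4
      (P % X) (Q % X + w * m0) (P / X % X) (Q / X % X + w * m1) (P / X / X % X)
      (Q / X / X % X + w * m2) (P / X / X / X % X) (Q / X / X / X % X + w * m3)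
      (P / X / X / X / X % X) (Q / X / X / X / X % X + w * m4) (P / X / X / X / X / X % X)
      (Q / X / X / X / X / X % X + w * m5) (P / X / X / X / X / X / X % X)
      (Q / X / X / X / X / X / X % X + w * m6) (P / X / X / X / X / X / X / X % X)
      (Q / X / X / X / X / X / X / X % X + w * m7) (P / X / X / X / X / X / X / X / X % X)
      (Q / X / X / X / X / X / X / X / X % X + w * m8)
      (P / X / X / X / X / X / X / X / X / X % X)
      (Q / X / X / X / X / X / X / X / X / X % X + w * m9)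
  | _ => false

/-- The packed leaf test in dimension 5. -/
def leaf5 (X P Q w : ℕ) : List ℕ → Bool
  | [] =>
    pivot5
      (P % X) (Q % X) (P / X % X) (Q / X % X) (P / X / X % X) (Q / X / X % X) (P / X / X / X % X)
      (Q / X / X / X % X) (P / X / X / X / X % X) (Q / X / X / X / X % X)
      (P / X / X / X / X / X % X) (Q / X / X / X / X / X % X) (P / X / X / X / X / X / X % X)
      (Q / X / X / X / X / X / X % X) (P / X / X / X / X / X / X / X % X)
      (Q / X / X / X / X / X / X / X % X) (P / X / X / X / X / X / X / X / X % X)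
      (Q / X / X / X / X / X / X / X / X % X) (P / X / X / X / X / X / X / X / X / X % X)
      (Q / X / X / X / X / X / X / X / X / X % X) (P / X / X / X / X / X / X / X / X / X / X % X)
      (Q / X / X / X / X / X / X / X / X / X / X % X)
      (P / X / X / X / X / X / X / X / X / X / X / X % X)
      (Q / X / X / X / X / X / X / X / X / X / X / X % X)
      (P / X / X / X / X / X / X / X / X / X / X / X / X % X)
      (Q / X / X / X / X / X / X / X / X / X / X / X / X % X)
      (P / X / X / X / X / X / X / X / X / X / X / X / X / X % X)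
      (Q / X / X / X / X / X / X / X / X / X / X / X / X / X % X)
      (P / X / X / X / X / X / X / X / X / X / X / X / X / X / X % X)
      (Q / X / X / X / X / X / X / X / X / X / X / X / X / X / X % X)
  | [m0, m1, m2, m3, m4, m5, m6, m7, m8, m9, m10, m11, m12, m13, m14] =>
    pivot5
      (P % X) (Q % X + w * m0) (P / X % X) (Q / X % X + w * m1) (P / X / X % X)
      (Q / X / X % X + w * m2) (P / X / X / X % X) (Q / X / X / X % X + w * m3)
      (P / X / X / X / X % X) (Q / X / X / X / X % X + w * m4) (P / X / X / X / X / X % X)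
      (Q / X / X / X / X / X % X + w * m5) (P / X / X / X / X / X / X % X)
      (Q / X / X / X / X / X / X % X + w * m6) (P / X / X / X / X / X / X / X % X)
      (Q / X / X / X / X / X / X / X % X + w * m7) (P / X / X / X / X / X / X / X / X % X)
      (Q / X / X / X / X / X / X / X / X % X + w * m8)
      (P / X / X / X / X / X / X / X / X / X % X)
      (Q / X / X / X / X / X / X / X / X / X % X + w * m9)
      (P / X / X / X / X / X / X / X / X / X / X % X)
      (Q / X / X / X / X / X / X / X / X / X / X % X + w * m10)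
      (P / X / X / X / X / X / X / X / X / X / X / X % X)
      (Q / X / X / X / X / X / X / X / X / X / X / X % X + w * m11)
      (P / X / X / X / X / X / X / X / X / X / X / X / X % X)
      (Q / X / X / X / X / X / X / X / X / X / X / X / X % X + w * m12)
      (P / X / X / X / X / X / X / X / X / X / X / X / X / X % X)
      (Q / X / X / X / X / X / X / X / X / X / X / X / X / X % X + w * m13)
      (P / X / X / X / X / X / X / X / X / X / X / X / X / X / X % X)
      (Q / X / X / X / X / X / X / X / X / X / X / X / X / X / X % X + w * m14)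
  | _ => false

/-- The packed leaf test in dimension 6. -/
def leaf6 (X P Q w : ℕ) : List ℕ → Bool
  | [] =>
    pivot6
      (P % X) (Q % X) (P / X % X) (Q / X % X) (P / X / X % X) (Q / X / X % X) (P / X / X / X % X)
      (Q / X / X / X % X) (P / X / X / X / X % X) (Q / X / X / X / X % X)
      (P / X / X / X / X / X % X) (Q / X / X / X / X / X % X) (P / X / X / X / X / X / X % X)
      (Q / X / X / X / X / X / X % X) (P / X / X / X / X / X / X / X % X)
      (Q / X / X / X / X / X / X / X % X) (P / X / X / X / X / X / X / X / X % X)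
      (Q / X / X / X / X / X / X / X / X % X) (P / X / X / X / X / X / X / X / X / X % X)
      (Q / X / X / X / X / X / X / X / X / X % X) (P / X / X / X / X / X / X / X / X / X / X % X)
      (Q / X / X / X / X / X / X / X / X / X / X % X)
      (P / X / X / X / X / X / X / X / X / X / X / X % X)
      (Q / X / X / X / X / X / X / X / X / X / X / X % X)
      (P / X / X / X / X / X / X / X / X / X / X / X / X % X)
      (Q / X / X / X / X / X / X / X / X / X / X / X / X % X)
      (P / X / X / X / X / X / X / X / X / X / X / X / X / X % X)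
      (Q / X / X / X / X / X / X / X / X / X / X / X / X / X % X)
      (P / X / X / X / X / X / X / X / X / X / X / X / X / X / X % X)
      (Q / X / X / X / X / X / X / X / X / X / X / X / X / X / X % X)
      (P / X / X / X / X / X / X / X / X / X / X / X / X / X / X / X % X)
      (Q / X / X / X / X / X / X / X / X / X / X / X / X / X / X / X % X)
      (P / X / X / X / X / X / X / X / X / X / X / X / X / X / X / X / X % X)
      (Q / X / X / X / X / X / X / X / X / X / X / X / X / X / X / X / X % X)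
      (P / X / X / X / X / X / X / X / X / X / X / X / X / X / X / X / X / X % X)
      (Q / X / X / X / X / X / X / X / X / X / X / X / X / X / X / X / X / X % X)
      (P / X / X / X / X / X / X / X / X / X / X / X / X / X / X / X / X / X / X % X)
      (Q / X / X / X / X / X / X / X / X / X / X / X / X / X / X / X / X / X / X % X)
      (P / X / X / X / X / X / X / X / X / X / X / X / X / X / X / X / X / X / X / X % X)
      (Q / X / X / X / X / X / X / X / X / X / X / X / X / X / X / X / X / X / X / X % X)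
      (P / X / X / X / X / X / X / X / X / X / X / X / X / X / X / X / X / X / X / X / X % X)
      (Q / X / X / X / X / X / X / X / X / X / X / X / X / X / X / X / X / X / X / X / X % X)
  | [m0, m1, m2, m3, m4, m5, m6, m7, m8, m9, m10, m11, m12, m13, m14, m15, m16, m17, m18, m19,
  m20] =>
    pivot6
      (P % X) (Q % X + w * m0) (P / X % X) (Q / X % X + w * m1) (P / X / X % X)
      (Q / X / X % X + w * m2) (P / X / X / X % X) (Q / X / X / X % X + w * m3)
      (P / X / X / X / X % X) (Q / X / X / X / X % X + w * m4) (P / X / X / X / X / X % X)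
      (Q / X / X / X / X / X % X + w * m5) (P / X / X / X / X / X / X % X)
      (Q / X / X / X / X / X / X % X + w * m6) (P / X / X / X / X / X / X / X % X)
      (Q / X / X / X / X / X / X / X % X + w * m7) (P / X / X / X / X / X / X / X / X % X)
      (Q / X / X / X / X / X / X / X / X % X + w * m8)
      (P / X / X / X / X / X / X / X / X / X % X)
      (Q / X / X / X / X / X / X / X / X / X % X + w * m9)
      (P / X / X / X / X / X / X / X / X / X / X % X)
      (Q / X / X / X / X / X / X / X / X / X / X % X + w * m10)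
      (P / X / X / X / X / X / X / X / X / X / X / X % X)
      (Q / X / X / X / X / X / X / X / X / X / X / X % X + w * m11)
      (P / X / X / X / X / X / X / X / X / X / X / X / X % X)
      (Q / X / X / X / X / X / X / X / X / X / X / X / X % X + w * m12)
      (P / X / X / X / X / X / X / X / X / X / X / X / X / X % X)
      (Q / X / X / X / X / X / X / X / X / X / X / X / X / X % X + w * m13)
      (P / X / X / X / X / X / X / X / X / X / X / X / X / X / X % X)
      (Q / X / X / X / X / X / X / X / X / X / X / X / X / X / X % X + w * m14)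
      (P / X / X / X / X / X / X / X / X / X / X / X / X / X / X / X % X)
      (Q / X / X / X / X / X / X / X / X / X / X / X / X / X / X / X % X + w * m15)
      (P / X / X / X / X / X / X / X / X / X / X / X / X / X / X / X / X % X)
      (Q / X / X / X / X / X / X / X / X / X / X / X / X / X / X / X / X % X + w * m16)
      (P / X / X / X / X / X / X / X / X / X / X / X / X / X / X / X / X / X % X)
      (Q / X / X / X / X / X / X / X / X / X / X / X / X / X / X / X / X / X % X + w * m17)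
      (P / X / X / X / X / X / X / X / X / X / X / X / X / X / X / X / X / X / X % X)
      (Q / X / X / X / X / X / X / X / X / X / X / X / X / X / X / X / X / X / X % X + w * m18)
      (P / X / X / X / X / X / X / X / X / X / X / X / X / X / X / X / X / X / X / X % X)
      (Q / X / X / X / X / X / X / X / X / X / X / X / X / X / X / X / X / X / X / X % X + w * m19)
      (P / X / X / X / X / X / X / X / X / X / X / X / X / X / X / X / X / X / X / X / X % X)
      (Q / X / X / X / X / X / X / X / X / X / X / X / X / X / X / X / X / X / X / X / X % X + w * m20)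
  | _ => false

end Vale.Agent.P098.Check
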