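import Vale.Agent.P098.Check.Sound

/-!
P098, positivity checker: bisection trees of boxes.
-/

namespace Vale.Agent.P098.Check

/-- A bisection tree: `node axis mid l r` splits the given axis at `mid`. -/
inductive Bisect : Type
  | leaf : Bisect
  | node : ℕ → ℕ → Bisect → Bisect → Bisect

/-- The cover of a box by itself, without multiplier. -/
def oneCell : (ds : List ℕ) → List (ℕ × ℕ) → Cover ds
  | [], _ => ([] : List ℕ)
  | _ :: _, [] => ([] : List ((ℕ × ℕ) × _))
  | _ :: ds, b :: box => [(b, oneCell ds box)]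

/-- The lower half of a box. -/
def lowerBox : ℕ → ℕ → List (ℕ × ℕ) → List (ℕ × ℕ)
  | _, _, [] => []
  | 0, m, (lo, _) :: r => (lo, m) :: r
  | k + 1, m, b :: r => b :: lowerBox k m r

/-- The upper half of a box. -/
def upperBox : ℕ → ℕ → List (ℕ × ℕ) → List (ℕ × ℕ)
  | _, _, [] => []
  | 0, m, (_, hi) :: r => (m, hi) :: r
  | k + 1, m, b :: r => b :: upperBox k m r

/-- The checker on every leaf of a bisection tree. -/
def checkTree (D X N : ℕ) (leaf : ℕ → ℕ → ℕ → ℕ → List ℕ → Bool) (allowed : List Bool)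
    (ds : List ℕ) (P Q B : ℕ) : Bisect → List (ℕ × ℕ) → Bool
  | .leaf, box => box.all (fun lh => Nat.blt lh.1 lh.2) &&
      check D X N leaf allowed ds P Q B 1 box (oneCell ds box)
  | .node k m l r, box => checkTree D X N leaf allowed ds P Q B l (lowerBox k m box) &&
      checkTree D X N leaf allowed ds P Q B r (upperBox k m box)

/-- A node passes when both halves pass. -/
lemma checkTree_node {D X N : ℕ} {leaf : ℕ → ℕ → ℕ → ℕ → List ℕ → Bool} {allowed : List Bool}
    {ds : List ℕ} {P Q B k m : ℕ} {l r : Bisect} {box : List (ℕ × ℕ)}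
    (hl : checkTree D X N leaf allowed ds P Q B l (lowerBox k m box) = true)
    (hr : checkTree D X N leaf allowed ds P Q B r (upperBox k m box) = true) :
    checkTree D X N leaf allowed ds P Q B (.node k m l r) box = true := by
  rw [checkTree, hl, hr]; rfl

/-- The tree checker on flat lists of digits. -/
def checkTreePoly (D X B N : ℕ) (leaf : ℕ → ℕ → ℕ → ℕ → List ℕ → Bool) (allowed : List Bool)
    (ds : List ℕ) (p q : List ℕ) (box : List (ℕ × ℕ)) (t : Bisect) : Bool :=
  Nat.beq p.length (size N ds) && Nat.beq q.length (size N ds) &&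
    p.all (fun a => Nat.ble a B) && q.all (fun a => Nat.ble a B) &&
    checkTree D X N leaf allowed ds (packN X p) (packN X q) B t box

lemma inBox_split {D : ℕ} : ∀ (k m : ℕ) {box : List (ℕ × ℕ)} {xs : List ℝ}, InBox D box xs →
    InBox D (lowerBox k m box) xs ∨ InBox D (upperBox k m box) xs
  | _, _, [], [], _ => Or.inl (by simp [lowerBox, InBox])
  | 0, m, (lo, hi) :: box, x :: xs, h => by
    rcases le_total ((D : ℝ) * x) m with hx | hx
    · exact Or.inl ⟨⟨h.1.1, hx⟩, h.2⟩
    · exact Or.inr ⟨⟨hx, h.1.2⟩, h.2⟩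
  | k + 1, m, (lo, hi) :: box, x :: xs, h => by
    rcases inBox_split k m h.2 with hx | hx
    · exact Or.inl ⟨h.1, hx⟩
    · exact Or.inr ⟨h.1, hx⟩
  | _, _, [], _ :: _, h => h.elim
  | _, _, _ :: _, [], h => h.elim

/-- Soundness of `checkTree`. -/
theorem checkTree_sound {D X N : ℕ} {leaf : ℕ → ℕ → ℕ → ℕ → List ℕ → Bool} {allowed : List Bool}
    {mon : List ℝ} (hD : 0 < D) (hleaf : LeafSound N leaf mon) (hmon : monOK allowed mon)
    {ds p q : List ℕ} {B : ℕ} (hp : Digits (size N ds) B p) (hq : Digits (size N ds) B q) :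
    ∀ (t : Bisect) {box : List (ℕ × ℕ)} {xs : List ℝ},
      checkTree D X N leaf allowed ds (packN X p) (packN X q) B t box = true → InBox D box xs →
      evalP N mon ds q xs ≤ evalP N mon ds p xs
  | .leaf, box, xs, h, hx => by
    simp only [checkTree, Bool.and_eq_true, List.all_eq_true] at h
    exact check_sound hD hleaf hmon ds hp hq h.2
      (fun lh hl => Nat.le_of_ble_eq_true (h.1 lh hl)) hx
  | .node k m l r, box, xs, h, hx => by
    simp only [checkTree, Bool.and_eq_true] at h
    rcases inBox_split k m hx with hx | hx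
    · exact checkTree_sound hD hleaf hmon hp hq l h.1 hx
    · exact checkTree_sound hD hleaf hmon hp hq r h.2 hx

/-- Soundness of `checkTreePoly`. -/
theorem checkTreePoly_sound {D X B N : ℕ} {leaf : ℕ → ℕ → ℕ → ℕ → List ℕ → Bool}
    {allowed : List Bool} {ds p q : List ℕ} {box : List (ℕ × ℕ)} {t : Bisect}
    (h : checkTreePoly D X B N leaf allowed ds p q box t = true) (hD : 0 < D) {mon : List ℝ}
    (hleaf : LeafSound N leaf mon) (hmon : monOK allowed mon) {xs : List ℝ}
    (hxs : InBox D box xs) : evalP N mon ds q xs ≤ evalP N mon ds p xs := by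
  simp only [checkTreePoly, Bool.and_eq_true, List.all_eq_true, Nat.beq_eq] at h
  obtain ⟨⟨⟨⟨hp, hq⟩, hpB⟩, hqB⟩, hc⟩ := h
  exact checkTree_sound hD hleaf hmon ⟨hp, fun a ha => Nat.le_of_ble_eq_true (hpB a ha)⟩
    ⟨hq, fun a ha => Nat.le_of_ble_eq_true (hqB a ha)⟩ t hc hxs

end Vale.Agent.P098.Check
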